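import Mathlib

/-! Holomorphic discs whose centre is close to a local peak point stay close to it. -/

open Filter Metric Set Topology

namespace Vale.Agent.N274

/-- `u` is continuous at `ζ` and touched from below at `ζ` by the real part of a holomorphic
function. -/
def Sup (u : ℂ → ℝ) (ζ : ℂ) : Prop :=
  ContinuousAt u ζ ∧ ∃ a : ℂ → ℂ, (∀ᶠ z in 𝓝 ζ, DifferentiableAt ℂ a z) ∧ (a ζ).re = u ζ ∧
    ∀ᶠ z in 𝓝 ζ, (a z).re ≤ u z

theorem Sup.congr {u v : ℂ → ℝ} {ζ : ℂ} (h : Sup u ζ) (huv : ∀ᶠ z in 𝓝 ζ, u z = v z) :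
    Sup v ζ := by
  obtain ⟨h1, a, h2, h3, h4⟩ := h
  refine ⟨h1.congr huv, a, h2, h3.trans huv.self_of_nhds, ?_⟩
  filter_upwards [h4, huv] with z h5 h6
  rwa [← h6]

theorem Sup.re {a : ℂ → ℂ} {ζ : ℂ} (h : ∀ᶠ z in 𝓝 ζ, DifferentiableAt ℂ a z) :
    Sup (fun z => (a z).re) ζ :=
  ⟨Complex.continuous_re.continuousAt.comp h.self_of_nhds.continuousAt, a, h, rfl,
    Eventually.of_forall fun _ => le_rfl⟩

theorem Sup.const (c : ℝ) (ζ : ℂ) : Sup (fun _ => c) ζ :=
  ⟨continuousAt_const, fun _ => (c : ℂ), Eventually.of_forall fun _ => differentiableAt_const _,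
    Complex.ofReal_re c, Eventually.of_forall fun _ => (Complex.ofReal_re c).le⟩

theorem Sup.max {u v : ℂ → ℝ} {ζ : ℂ} (hu : Sup u ζ) (hv : Sup v ζ) :
    Sup (fun z => max (u z) (v z)) ζ := by
  obtain ⟨h1, a, h2, h3, h4⟩ := hu
  obtain ⟨k1, b, k2, k3, k4⟩ := hv
  refine ⟨h1.max k1, ?_⟩
  rcases le_total (u ζ) (v ζ) with h | h
  · exact ⟨b, k2, by rw [k3]; exact (max_eq_right h).symm,
      k4.mono fun z hz => hz.trans (le_max_right _ _)⟩
  · exact ⟨a, h2, by rw [h3]; exact (max_eq_left h).symm,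
      h4.mono fun z hz => hz.trans (le_max_left _ _)⟩

/-- The maximum principle. -/
theorem max_principle {u : ℂ → ℝ} {R : ℝ} (hR : 0 < R)
    (hu : ∀ ζ ∈ closedBall (0 : ℂ) R, Sup u ζ)
    {Q : ℂ → ℂ} (hQ : Differentiable ℂ Q) (h : ∀ ζ ∈ sphere (0 : ℂ) R, u ζ ≤ (Q ζ).re) :
    ∀ ζ ∈ closedBall (0 : ℂ) R, u ζ ≤ (Q ζ).re := by
  set d : ℂ → ℝ := fun z => u z - (Q z).re with hd
  have hdc : ContinuousOn d (closedBall 0 R) := fun z hz =>
    ((hu z hz).1.sub (Complex.continuous_re.continuousAt.comp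
      (hQ z).continuousAt)).continuousWithinAt
  obtain ⟨z0, hz0, hmax⟩ := (isCompact_closedBall (0 : ℂ) R).exists_isMaxOn
    ⟨0, mem_closedBall_self hR.le⟩ hdc
  have hm : d z0 ≤ 0 := by
    by_contra hpos
    push Not at hpos
    set K : Set ℂ := closedBall 0 R ∩ d ⁻¹' {d z0} with hK
    have hKc : IsCompact K := (isCompact_closedBall (0 : ℂ) R).of_isClosed_subset
      (hdc.preimage_isClosed_of_isClosed isClosed_closedBall isClosed_singleton) inter_subset_left
    obtain ⟨z1, hz1, hz1m⟩ := hKc.exists_isMaxOn ⟨z0, hz0, rfl⟩ continuous_norm.continuousOn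
    have hz1d : d z1 = d z0 := hz1.2
    have hz1b : ‖z1‖ < R := by
      rcases (mem_closedBall_zero_iff.1 hz1.1).lt_or_eq with h1 | h1
      · exact h1
      · have := h z1 (mem_sphere_zero_iff_norm.2 h1)
        have h2 : d z1 ≤ 0 := sub_nonpos.2 this
        linarith
    have hnb : ∀ᶠ z in 𝓝 z1, z ∈ closedBall (0 : ℂ) R :=
      mem_of_superset (isOpen_ball.mem_nhds (mem_ball_zero_iff.2 hz1b)) ball_subset_closedBall
    obtain ⟨-, a, h2, h3, h4⟩ := hu z1 hz1.1
    have h5 : ∀ᶠ z in 𝓝 z1, DifferentiableAt ℂ (fun z => Complex.exp (a z - Q z)) z :=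
      h2.mono fun z hz => (hz.sub (hQ z)).cexp
    have h6 : IsLocalMax (norm ∘ fun z => Complex.exp (a z - Q z)) z1 := by
      filter_upwards [h4, hnb] with z h7 h8
      simp only [Function.comp_apply, Complex.norm_exp, Complex.sub_re, Real.exp_le_exp]
      have h9 : d z ≤ d z0 := hmax h8
      rw [← hz1d] at h9
      simp only [hd] at h9
      linarith
    have h7 := Complex.norm_eventually_eq_of_isLocalMax h5 h6
    have h8 : ∀ᶠ z in 𝓝 z1, ‖z‖ ≤ ‖z1‖ := by
      filter_upwards [h7, h4, hnb] with z k1 k2 k3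
      simp only [Complex.norm_exp, Complex.sub_re, Real.exp_eq_exp] at k1
      have h9 : d z ≤ d z0 := hmax k3
      have h10 : d z = d z0 := by
        refine le_antisymm h9 ?_
        rw [← hz1d]
        simp only [hd]
        linarith
      exact hz1m ⟨k3, h10⟩
    obtain ⟨r, hr, hrb⟩ := Metric.eventually_nhds_iff_ball.1 h8
    have h9 : ‖z1‖ + r / 2 ≤ ‖z1‖ := by
      obtain ⟨w, hw1, hw2⟩ : ∃ w : ℂ, ‖w‖ = 1 ∧ z1 = (‖z1‖ : ℂ) * w := by
        refine ⟨Complex.exp (Complex.arg z1 * Complex.I), Complex.norm_exp_ofReal_mul_I _, ?_⟩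
        exact (Complex.norm_mul_exp_arg_mul_I z1).symm
      have h10 := hrb (((‖z1‖ + r / 2 : ℝ) : ℂ) * w) (by
        rw [mem_ball, dist_eq_norm]
        conv_lhs => enter [1, 2]; rw [hw2]
        rw [← sub_mul, norm_mul, hw1, mul_one, ← Complex.ofReal_sub, Complex.norm_real,
          Real.norm_eq_abs, add_sub_cancel_left, abs_of_pos (by positivity)]
        linarith)
      rwa [norm_mul, hw1, mul_one, Complex.norm_real, Real.norm_eq_abs,
        abs_of_pos (by positivity)] at h10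
    linarith
  intro ζ hζ
  have h1 : d ζ ≤ d z0 := hmax hζ
  simp only [hd] at h1 hm
  linarith

/-- Continuous functions on a circle are uniform limits of real parts of entire functions. -/
theorem exists_entire_approx {u : ℂ → ℝ} {R : ℝ} (hR : 0 < R)
    (hu : ContinuousOn u (sphere 0 R)) {ε : ℝ} (hε : 0 < ε) :
    ∃ Q : ℂ → ℂ, Differentiable ℂ Q ∧ ∀ ζ ∈ sphere (0 : ℂ) R, |u ζ - (Q ζ).re| < ε := by
  have : Fact ((0 : ℝ) < 1) := ⟨one_pos⟩
  have hn : ∀ x : AddCircle (1 : ℝ), ‖fourier 1 x‖ = 1 := fun x => by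
    rw [fourier_apply]
    exact Circle.norm_coe _
  have hmem : ∀ x : AddCircle (1 : ℝ), (R : ℂ) * fourier 1 x ∈ sphere (0 : ℂ) R := fun x => by
    rw [mem_sphere_zero_iff_norm, norm_mul, hn, mul_one, Complex.norm_real,
      Real.norm_of_nonneg hR.le]
  have hc : Continuous fun x : AddCircle (1 : ℝ) => ((u ((R : ℂ) * fourier 1 x) : ℝ) : ℂ) :=
    Complex.continuous_ofReal.comp (hu.comp_continuous
      (continuous_const.mul (fourier 1).continuous) hmem)
  set g : C(AddCircle (1 : ℝ), ℂ) := ⟨_, hc⟩ with hg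
  have h1 : g ∈ closure ((Submodule.span ℂ (range (@fourier 1)) : Submodule ℂ _) :
      Set C(AddCircle (1 : ℝ), ℂ)) := by
    rw [← Submodule.topologicalClosure_coe, span_fourier_closure_eq_top]
    trivial
  obtain ⟨F, hF, hFg⟩ := Metric.mem_closure_iff.1 h1 ε hε
  have hpow : ∀ (m : ℕ) (x : AddCircle (1 : ℝ)), fourier (m : ℤ) x = (fourier 1 x) ^ m := by
    intro m x
    induction m with
    | zero => simp
    | succ m ih => rw [Nat.cast_succ, fourier_add, ih, pow_succ]
  have key : ∃ Q1 Q2 : ℂ → ℂ, Differentiable ℂ Q1 ∧ Differentiable ℂ Q2 ∧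
      ∀ x, F x = Q1 (fourier 1 x) + (starRingEnd ℂ) (Q2 (fourier 1 x)) := by
    refine Submodule.span_induction (p := fun F _ => ∃ Q1 Q2 : ℂ → ℂ, Differentiable ℂ Q1 ∧
      Differentiable ℂ Q2 ∧
      ∀ x, F x = Q1 (fourier 1 x) + (starRingEnd ℂ) (Q2 (fourier 1 x))) ?_ ?_ ?_ ?_ hF
    · rintro _ ⟨n, rfl⟩
      obtain ⟨m, rfl | rfl⟩ := Int.eq_nat_or_neg n
      · exact ⟨fun z => z ^ m, fun _ => 0, differentiable_pow m, differentiable_const _,
          fun x => by rw [hpow]; simp⟩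
      · exact ⟨fun _ => 0, fun z => z ^ m, differentiable_const _, differentiable_pow m,
          fun x => by rw [fourier_neg, hpow]; simp⟩
    · exact ⟨fun _ => 0, fun _ => 0, differentiable_const _, differentiable_const _,
        fun x => by simp⟩
    · rintro F G - - ⟨a, b, ha, hb, h⟩ ⟨a', b', ha', hb', h'⟩
      refine ⟨fun z => a z + a' z, fun z => b z + b' z, ha.add ha', hb.add hb', fun x => ?_⟩
      rw [ContinuousMap.add_apply, h, h', map_add]
      ring
    · rintro c F - ⟨a, b, ha, hb, h⟩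
      refine ⟨fun z => c * a z, fun z => (starRingEnd ℂ) c * b z, ha.const_mul _, hb.const_mul _,
        fun x => ?_⟩
      rw [ContinuousMap.smul_apply, h, map_mul, Complex.conj_conj, smul_eq_mul]
      ring
  obtain ⟨Q1, Q2, h2, h3, h4⟩ := key
  refine ⟨fun z => Q1 (z / R) + Q2 (z / R), (h2.comp (differentiable_id.div_const _)).add
    (h3.comp (differentiable_id.div_const _)), fun ζ hζ => ?_⟩
  have hR0 : (R : ℂ) ≠ 0 := Complex.ofReal_ne_zero.2 hR.ne'
  obtain ⟨x, hx⟩ : ∃ x : AddCircle (1 : ℝ), (R : ℂ) * fourier 1 x = ζ := by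
    refine ⟨((Complex.arg ζ / (2 * Real.pi) : ℝ) : AddCircle (1 : ℝ)), ?_⟩
    rw [fourier_coe_apply]
    have h5 : ‖ζ‖ = R := mem_sphere_zero_iff_norm.1 hζ
    have h6 := Complex.norm_mul_exp_arg_mul_I ζ
    rw [h5] at h6
    rw [← h6]
    congr 2
    have : (Real.pi : ℂ) ≠ 0 := Complex.ofReal_ne_zero.2 Real.pi_ne_zero
    rw [h6]
    push_cast
    field_simp
  have h5 : ζ / R = fourier 1 x := by rw [← hx]; field_simp
  have h6 : dist (g x) (F x) < ε := (ContinuousMap.dist_apply_le_dist x).trans_lt hFg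
  rw [dist_eq_norm] at h6
  have h7 := (Complex.abs_re_le_norm _).trans_lt h6
  rw [Complex.sub_re, h4] at h7
  have h8 : (g x).re = u ζ := by
    rw [← hx]
    exact Complex.ofReal_re _
  rw [h8, Complex.add_re, Complex.conj_re] at h7
  simp only [h5, Complex.add_re]
  exact h7

/-- Harnack inequality. -/
theorem harnack {G : ℂ → ℂ} (hG : Differentiable ℂ G) {R : ℝ} (hR : 0 < R)
    (h : ∀ z ∈ closedBall (0 : ℂ) R, 0 ≤ (G z).re) {ζ : ℂ} (hζ : ‖ζ‖ ≤ R / 2) {M : ℝ}
    (hM : 0 < M) : (G ζ).re ≤ 2 * M + 3 * (G 0).re := by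
  have h0 : 0 ≤ (G 0).re := h 0 (mem_closedBall_self hR.le)
  have h1 := Complex.borelCaratheodory (f := fun z => ((G 0).im : ℂ) * Complex.I - G z) (R := R)
    (z := ζ) hM (hG.const_sub _).differentiableOn (fun z hz => by
      have := h z (ball_subset_closedBall hz)
      simp only [mem_ofPred_eq, Complex.sub_re, Complex.mul_re, Complex.ofReal_re, Complex.I_re,
        Complex.ofReal_im, Complex.I_im]
      linarith) hR (mem_ball_zero_iff.2 (by linarith))
  have h2 : ‖((G 0).im : ℂ) * Complex.I - G 0‖ = (G 0).re := by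
    have : ((G 0).im : ℂ) * Complex.I - G 0 = -((G 0).re : ℂ) := by
      conv_lhs => enter [2]; rw [← Complex.re_add_im (G 0)]
      ring
    rw [this, norm_neg, Complex.norm_real, Real.norm_of_nonneg h0]
  have h3 : (G ζ).re ≤ ‖((G 0).im : ℂ) * Complex.I - G ζ‖ := by
    have := Complex.abs_re_le_norm (((G 0).im : ℂ) * Complex.I - G ζ)
    simp only [Complex.sub_re, Complex.mul_re, Complex.ofReal_re, Complex.I_re,
      Complex.ofReal_im, Complex.I_im] at this
    have h4 := (abs_le.1 this).1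
    linarith
  simp only [h2] at h1
  have hd : 0 < R - ‖ζ‖ := by linarith
  have h4 : 2 * M * ‖ζ‖ / (R - ‖ζ‖) ≤ 2 * M := by
    rw [div_le_iff₀ hd]
    nlinarith
  have h5 : (G 0).re * (R + ‖ζ‖) / (R - ‖ζ‖) ≤ 3 * (G 0).re := by
    rw [div_le_iff₀ hd]
    nlinarith
  linarith

/-- Two-function estimate. -/
theorem two_fun {u v : ℂ → ℝ} (hu : ∀ ζ ∈ ball (0 : ℂ) 1, Sup u ζ)
    (hv : ∀ ζ ∈ ball (0 : ℂ) 1, Sup v ζ) {T d : ℝ} (hT : 0 < T) (hd : 0 < d)
    (hu0 : ∀ z, u z ≤ 0) (huv : ∀ z, v z ≤ -T + T / d * (-u z)) (h0 : -(d / 40) ≤ u 0)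
    {ζ : ℂ} (hζ : ‖ζ‖ ≤ 1 / 4) : v ζ ≤ -(T / 2) := by
  have hsub : closedBall (0 : ℂ) (1 / 2) ⊆ ball 0 1 := closedBall_subset_ball (by norm_num)
  have hR : (0 : ℝ) < 1 / 2 := by norm_num
  obtain ⟨Q, hQ, hQu⟩ := exists_entire_approx (u := u) hR
    (fun z hz => (hu z (hsub (sphere_subset_closedBall hz))).1.continuousWithinAt)
    (ε := d / 40) (by positivity)
  have h1 := max_principle hR (fun z hz => hu z (hsub hz))
    (Q := fun z => Q z + ((d / 40 : ℝ) : ℂ)) (hQ.add_const _) (fun z hz => by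
      have := (abs_lt.1 (hQu z hz)).2
      simp only [Complex.add_re, Complex.ofReal_re]
      linarith) 0 (mem_closedBall_self hR.le)
  simp only [Complex.add_re, Complex.ofReal_re] at h1
  set G : ℂ → ℂ := fun z => ((d / 40 : ℝ) : ℂ) - Q z with hG
  have hGd : Differentiable ℂ G := hQ.const_sub _
  have hGre : ∀ z, (G z).re = d / 40 - (Q z).re := fun z => by
    simp only [hG, Complex.sub_re, Complex.ofReal_re]
  have hGu : ∀ z ∈ sphere (0 : ℂ) (1 / 2), -u z ≤ (G z).re := fun z hz => by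
    have := (abs_lt.1 (hQu z hz)).1
    rw [hGre]
    linarith
  have h2 := max_principle (u := fun _ => 0) hR (fun z _ => Sup.const 0 z) hGd
    (fun z hz => by
      have h3 := hGu z hz
      have h4 := hu0 z
      linarith)
  have h3 := harnack hGd hR h2 (ζ := ζ) (by linarith) (M := d / 40) (by positivity)
  have h4 := max_principle hR (fun z hz => hv z (hsub hz))
    (Q := fun z => ((-T : ℝ) : ℂ) + ((T / d : ℝ) : ℂ) * G z) ((hGd.const_mul _).const_add _)
    (fun z hz => by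
      have h5 := huv z
      have h6 := mul_le_mul_of_nonneg_left (hGu z hz) (div_pos hT hd).le
      simp only [Complex.add_re, Complex.ofReal_re, Complex.re_ofReal_mul]
      linarith) ζ (mem_closedBall_zero_iff.2 (by linarith))
  simp only [Complex.add_re, Complex.ofReal_re, Complex.re_ofReal_mul] at h4
  have h5 : (G ζ).re ≤ d / 2 := by
    rw [hGre 0] at h3
    linarith
  have h6 : T / d * (G ζ).re ≤ T / d * (d / 2) :=
    mul_le_mul_of_nonneg_left h5 (div_pos hT hd).le
  have h7 : T / d * (d / 2) = T / 2 := by field_simp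
  linarith

open Classical in
/-- Attraction: a disc in the total space (seen in the chart on the open set `T`) whose centre is
close to the peak point `q` stays close to `q`. -/
theorem attract {E : Type*} [NormedAddCommGroup E] [NormedSpace ℂ E] [ProperSpace E]
    {Ω : Set E} {q : E} (hq : ‖q‖ < 1) (hqΩ : q ∉ Ω) {c δ : ℝ} (hc : 0 < c) (hδ : 0 < δ)
    {P : E → ℂ} (hP : DifferentiableOn ℂ P (ball q δ)) (hPq : P q = 0)
    (hre : ∀ z ∈ Ω, z ∈ ball q δ → c * ‖z - q‖ ^ 2 ≤ (P z).re) {ε : ℝ} (hε : 0 < ε) :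
    ∃ η > 0, ∀ (T : Set ℂ) (γ : ℂ → E), IsOpen T → DifferentiableOn ℂ γ T → MapsTo γ T Ω →
      (∀ r1 < 1, ∀ ζ ∈ ball (0 : ℂ) 1, ζ ∈ closure {z | z ∈ T ∧ ‖γ z‖ ≤ r1} → ζ ∈ T) →
      0 ∈ T → ‖γ 0 - q‖ < η → ∀ ζ : ℂ, ‖ζ‖ ≤ 1 / 4 → ζ ∈ T ∧ ‖γ ζ - q‖ < ε := by
  obtain ⟨r, hr, hrδ, hrε, hrq⟩ : ∃ r > 0, r < δ ∧ r ≤ ε ∧ ‖q‖ + r < 1 := by
    refine ⟨min (min (δ / 2) ε) ((1 - ‖q‖) / 2), by
      have : 0 < 1 - ‖q‖ := by linarith
      positivity, ?_, (min_le_left _ _).trans (min_le_right _ _), ?_⟩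
    · exact ((min_le_left _ _).trans (min_le_left _ _)).trans_lt (by linarith)
    · have := min_le_right (min (δ / 2) ε) ((1 - ‖q‖) / 2)
      linarith
  have hsub : closedBall q r ⊆ ball q δ := closedBall_subset_ball hrδ
  set s : ℝ := c * r ^ 2 / 2 with hs
  have hs0 : 0 < s := by positivity
  obtain ⟨B0, hB0⟩ := (isCompact_closedBall q r).exists_bound_of_continuousOn
    (hP.continuousOn.mono hsub)
  set B : ℝ := max B0 s with hB
  have hBs : s ≤ B := le_max_right _ _
  have hBpos : 0 < B := hs0.trans_le hBs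
  set L : ℝ := Real.log B - Real.log (s / 2) with hL
  have hL0 : 0 ≤ L := sub_nonneg.2 (Real.log_le_log (by positivity) (by linarith))
  set κ : ℝ := s / (4 * (L + 1)) with hκ
  have hκ0 : 0 < κ := by positivity
  have hκL : κ * L < s / 2 := by
    have h1 : κ * (L + 1) = s / 4 := by rw [hκ]; field_simp
    nlinarith
  have hPc : ContinuousAt P q := (hP.differentiableAt (ball_mem_nhds q hδ)).continuousAt
  have hsmall : ∀ t > 0, ∃ ρ > 0, ∀ z, ‖z - q‖ < ρ → ‖P z‖ < t := by
    intro t ht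
    obtain ⟨ρ, hρ, h1⟩ := Metric.continuousAt_iff.1 hPc t ht
    refine ⟨ρ, hρ, fun z hz => ?_⟩
    have := h1 (x := z) (by rwa [dist_eq_norm])
    rwa [hPq, dist_zero_right] at this
  obtain ⟨ρ, hρ, hρP⟩ := hsmall (min (s / 2) (B * Real.exp (-(4 * s) / κ))) (by positivity)
  set d : ℝ := min (c * ρ ^ 2) s with hd
  have hd0 : 0 < d := by positivity
  obtain ⟨η0, hη0, hηP⟩ := hsmall (d / 40) (by positivity)
  refine ⟨min η0 r, by positivity, fun T γ hT hγ hγΩ hcl h0T h0 ζ0 hζ0 => ?_⟩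
  set A : Set ℂ := {z | z ∈ T ∧ ‖γ z - q‖ < r} with hA
  have hγc : ∀ z ∈ T, ContinuousAt γ z := fun z hz =>
    (hγ.differentiableAt (hT.mem_nhds hz)).continuousAt
  have hAo : ∀ z ∈ A, ∀ᶠ w in 𝓝 z, w ∈ A := fun z hz =>
    (hT.eventually_mem hz.1).and (((hγc z hz.1).sub continuousAt_const).norm.eventually_lt_const
      hz.2)
  set p : ℂ → ℂ := fun z => P (γ z) with hp
  have hball : ∀ z ∈ T, ‖γ z - q‖ ≤ r → γ z ∈ ball q δ := fun z _ h =>
    hsub (mem_closedBall_iff_norm.2 h)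
  have hpd : ∀ z ∈ T, ‖γ z - q‖ ≤ r → DifferentiableAt ℂ p z := fun z hz h =>
    (hP.differentiableAt (isOpen_ball.mem_nhds (hball z hz h))).comp z
      (hγ.differentiableAt (hT.mem_nhds hz))
  have hpre : ∀ z ∈ T, ‖γ z - q‖ ≤ r → c * ‖γ z - q‖ ^ 2 ≤ (p z).re := fun z hz h =>
    hre _ (hγΩ hz) (hball z hz h)
  have hppos : ∀ z ∈ A, 0 < (p z).re := fun z hz => by
    have h1 := hpre z hz.1 hz.2.le
    have h2 : γ z - q ≠ 0 := sub_ne_zero.2 fun h => hqΩ (h ▸ hγΩ hz.1)
    have h3 : 0 < ‖γ z - q‖ := norm_pos_iff.2 h2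
    have h4 : 0 < c * ‖γ z - q‖ ^ 2 := by positivity
    linarith
  have hpn : ∀ z ∈ A, 0 < ‖p z‖ := fun z hz => (hppos z hz).trans_le (Complex.re_le_norm _)
  have hpB : ∀ z ∈ A, ‖p z‖ ≤ B := fun z hz =>
    (hB0 _ (mem_closedBall_iff_norm.2 hz.2.le)).trans (le_max_left _ _)
  have hK : ∀ ζ ∈ ball (0 : ℂ) 1, ζ ∉ A → ∀ᶠ z in 𝓝 ζ, z ∈ A → s < (p z).re := by
    intro ζ hζ hζA
    by_cases h1 : ζ ∈ closure A
    · have h2 : ζ ∈ T := by
        refine hcl (‖q‖ + r) hrq ζ hζ (closure_mono ?_ h1)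
        intro z hz
        refine ⟨hz.1, ?_⟩
        have h3 := norm_le_norm_add_norm_sub' (γ z) q
        have h4 := hz.2
        linarith
      have h3 : ‖γ ζ - q‖ ≤ r := by
        by_contra h4
        push Not at h4
        have h5 := ((hγc ζ h2).sub continuousAt_const (g := fun _ => q)).norm.eventually_const_lt h4
        obtain ⟨z, h6, h7⟩ := ((mem_closure_iff_frequently.1 h1).and_eventually h5).exists
        exact absurd h6.2 (not_lt.2 h7.le)
      have h4 : r ≤ ‖γ ζ - q‖ := not_lt.1 fun h => hζA ⟨h2, h⟩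
      have h5 := hpre ζ h2 h3
      rw [le_antisymm h3 h4] at h5
      have h6 : s < (p ζ).re := by linarith
      have h7 := (Complex.continuous_re.continuousAt.comp
        (hpd ζ h2 h3).continuousAt).eventually_const_lt h6
      exact h7.mono fun z hz _ => hz
    · have h2 : ∀ᶠ z in 𝓝 ζ, z ∉ A := by
        rw [mem_closure_iff_frequently] at h1
        exact not_frequently.1 h1
      exact h2.mono fun z hz h => absurd h hz
  set H : ℂ → ℂ := fun z => -p z + (κ : ℂ) * (Complex.log (p z) - (Real.log B : ℝ)) with hH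
  have hHre : ∀ z, (H z).re = -(p z).re + κ * (Real.log ‖p z‖ - Real.log B) := fun z => by
    simp only [hH, Complex.add_re, Complex.neg_re, Complex.re_ofReal_mul, Complex.sub_re,
      Complex.log_re, Complex.ofReal_re]
  have hHd : ∀ z ∈ A, DifferentiableAt ℂ H z := fun z hz => by
    have h1 := hpd z hz.1 hz.2.le
    exact h1.neg.add (((h1.clog (Or.inl (hppos z hz))).sub_const _).const_mul _)
  have hHle : ∀ z ∈ A, (H z).re ≤ -(p z).re := fun z hz => by
    rw [hHre]
    have h1 := Real.log_le_log (hpn z hz) (hpB z hz)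
    nlinarith
  set u : ℂ → ℝ := fun z => if z ∈ A then max (-p z).re (-s) else -s with hu
  set v : ℂ → ℝ := fun z => if z ∈ A then
    (if ‖p z‖ < s / 2 then (H z).re else max (H z).re (-s)) else -s with hv
  have huS : ∀ ζ ∈ ball (0 : ℂ) 1, Sup u ζ := by
    intro ζ hζ
    by_cases h1 : ζ ∈ A
    · refine ((Sup.re (a := fun z => -p z) ((hAo ζ h1).mono fun z hz =>
        (hpd z hz.1 hz.2.le).neg)).max (Sup.const (-s) ζ)).congr ?_
      filter_upwards [hAo ζ h1] with z hz
      simp only [hu, if_pos hz]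
    · refine (Sup.const (-s) ζ).congr ?_
      filter_upwards [hK ζ hζ h1] with z hz
      by_cases h2 : z ∈ A
      · simp only [hu, if_pos h2, Complex.neg_re]
        exact (max_eq_right (by linarith [hz h2])).symm
      · simp only [hu, if_neg h2]
  have hvS : ∀ ζ ∈ ball (0 : ℂ) 1, Sup v ζ := by
    intro ζ hζ
    by_cases h1 : ζ ∈ A
    · have hSH : Sup (fun z => (H z).re) ζ := Sup.re ((hAo ζ h1).mono hHd)
      have hpc : ContinuousAt (fun z => ‖p z‖) ζ := (hpd ζ h1.1 h1.2.le).continuousAt.norm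
      rcases lt_trichotomy ‖p ζ‖ (s / 2) with h2 | h2 | h2
      · refine hSH.congr ?_
        filter_upwards [hAo ζ h1, hpc.eventually_lt_const h2] with z hz h3
        simp only [hv, if_pos hz, if_pos h3]
      · refine hSH.congr ?_
        have h3 : -s < (H ζ).re := by
          rw [hHre, h2]
          have h4 := Complex.re_le_norm (p ζ)
          have h5 : κ * (Real.log (s / 2) - Real.log B) = -(κ * L) := by rw [hL]; ring
          linarith
        filter_upwards [hAo ζ h1, hSH.1.eventually_const_lt h3] with z hz h4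
        simp only [hv, if_pos hz]
        split_ifs
        · rfl
        · exact (max_eq_left h4.le).symm
      · refine (hSH.max (Sup.const (-s) ζ)).congr ?_
        filter_upwards [hAo ζ h1, hpc.eventually_const_lt h2] with z hz h3
        simp only [hv, if_pos hz, if_neg (not_lt.2 h3.le)]
    · refine (Sup.const (-s) ζ).congr ?_
      filter_upwards [hK ζ hζ h1] with z hz
      by_cases h2 : z ∈ A
      · have h3 := hz h2
        have h4 := Complex.re_le_norm (p z)
        have h5 := hHle z h2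
        simp only [hv, if_pos h2, if_neg (show ¬ ‖p z‖ < s / 2 by linarith)]
        exact (max_eq_right (by linarith)).symm
      · simp only [hv, if_neg h2]
  have hu0 : ∀ z, u z ≤ 0 := fun z => by
    by_cases h1 : z ∈ A
    · simp only [hu, if_pos h1, Complex.neg_re]
      exact max_le (by linarith [hppos z h1]) (by linarith)
    · simp only [hu, if_neg h1]
      linarith
  have hv0 : ∀ z, v z ≤ 0 := fun z => by
    by_cases h1 : z ∈ A
    · have h2 := hHle z h1
      have h3 := hppos z h1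
      simp only [hv, if_pos h1]
      split_ifs
      · linarith
      · exact max_le (by linarith) (by linarith)
    · simp only [hv, if_neg h1]
      linarith
  have hds : d ≤ s := min_le_right _ _
  have huv : ∀ z, v z ≤ -(4 * s) + 4 * s / d * (-u z) := by
    intro z
    by_cases h1 : z ∈ A ∧ (p z).re < d
    · have h2 := hpre z h1.1.1 h1.1.2.le
      have h3 : ‖γ z - q‖ < ρ := by
        have h4 : c * ‖γ z - q‖ ^ 2 < c * ρ ^ 2 := (h2.trans_lt h1.2).trans_le (min_le_left _ _)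
        exact lt_of_pow_lt_pow_left₀ 2 hρ.le (lt_of_mul_lt_mul_left h4 hc.le)
      have h4 := hρP _ h3
      have h5 : ‖p z‖ < s / 2 := h4.trans_le (min_le_left _ _)
      have h6 : ‖p z‖ ≤ B * Real.exp (-(4 * s) / κ) := (h4.trans_le (min_le_right _ _)).le
      have h7 := Real.log_le_log (hpn z h1.1) h6
      rw [Real.log_mul hBpos.ne' (Real.exp_pos _).ne', Real.log_exp] at h7
      have h8 : κ * (Real.log ‖p z‖ - Real.log B) ≤ κ * (-(4 * s) / κ) :=
        mul_le_mul_of_nonneg_left (by linarith) hκ0.le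
      rw [mul_div_cancel₀ _ hκ0.ne'] at h8
      have h9 : 0 ≤ 4 * s / d * (-u z) := mul_nonneg (by positivity) (by linarith [hu0 z])
      have h10 := hppos z h1.1
      simp only [hv, if_pos h1.1, if_pos h5, hHre]
      linarith
    · have h2 : d ≤ -u z := by
        by_cases h3 : z ∈ A
        · have h4 : d ≤ (p z).re := not_lt.1 fun h => h1 ⟨h3, h⟩
          simp only [hu, if_pos h3, Complex.neg_re]
          have := max_le (show -(p z).re ≤ -d by linarith) (show -s ≤ -d by linarith)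
          linarith
        · simp only [hu, if_neg h3]
          linarith
      have h3 : 4 * s / d * d ≤ 4 * s / d * (-u z) :=
        mul_le_mul_of_nonneg_left h2 (by positivity)
      rw [div_mul_cancel₀ _ hd0.ne'] at h3
      linarith [hv0 z]
  have h0A : (0 : ℂ) ∈ A := ⟨h0T, h0.trans_le (min_le_right _ _)⟩
  have hu00 : -(d / 40) ≤ u 0 := by
    have h1 := hηP _ (h0.trans_le (min_le_left _ _))
    have h2 := Complex.re_le_norm (p 0)
    simp only [hu, if_pos h0A, Complex.neg_re]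
    refine le_trans ?_ (le_max_left _ _)
    have h3 : ‖p 0‖ < d / 40 := h1
    linarith
  have hfin := two_fun huS hvS (T := 4 * s) (by positivity) hd0 hu0 huv hu00 hζ0
  have hζA : ζ0 ∈ A := by
    by_contra h1
    simp only [hv, if_neg h1] at hfin
    linarith
  exact ⟨hζA.1, hζA.2.trans_le hrε⟩

end Vale.Agent.N274
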