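import Vale.Agent.P274.H959.Defs

/-! Definitions for complex manifolds of dimension `n` (charts in `ℂ^n`). -/

open Set
open scoped Manifold

namespace Vale.Agent.N274

variable (n : ℕ) {M Y : Type} [TopologicalSpace M] [ChartedSpace (EuclideanSpace ℂ (Fin n)) M]
  [TopologicalSpace Y] [ChartedSpace (EuclideanSpace ℂ (Fin n)) Y]

/-- `e` and its inverse are holomorphic (on the open sets `e.source`, `e.target`). -/
def IsBiholomorphic (e : OpenPartialHomeomorph M Y) : Prop :=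
  e.MDifferentiable 𝓘(ℂ, EuclideanSpace ℂ (Fin n)) 𝓘(ℂ, EuclideanSpace ℂ (Fin n))

/-- `q` is a local peak point of `C`: `q ∈ C` and some function `P`, holomorphic near `q`, has
`P q = 1` and `|P| < 1` at the other points of `C` near `q`. -/
def IsLocalPeakPoint (C : Set Y) (q : Y) : Prop :=
  q ∈ C ∧ ∃ W, IsOpen W ∧ q ∈ W ∧ ∃ P : Y → ℂ,
    MDifferentiableOn 𝓘(ℂ, EuclideanSpace ℂ (Fin n)) 𝓘(ℂ, ℂ) P W ∧ P q = 1 ∧
    ∀ y ∈ C ∩ W, y ≠ q → ‖P y‖ < 1

variable (M) in
/-- `M` is biholomorphic to a bounded symmetric domain of `ℂ^n`. -/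
def IsBiholomorphicToBSD : Prop :=
  ∃ e : OpenPartialHomeomorph M (EuclideanSpace ℂ (Fin n)), e.source = univ ∧
    IsBiholomorphic n e ∧ P274.IsBoundedSymmetricDomain e.target

end Vale.Agent.N274
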