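import Vale.Agent.N274.Scal

/-! Open subsets of complex manifolds with a boundary peak point; universal covers. -/

open Filter Metric Set Topology
open scoped Manifold

namespace Vale.Agent.N274

open Vale.Agent.P274 Vale.Agent.P274.Z

variable {n : ℕ} {M Y : Type*} [TopologicalSpace M] [ChartedSpace (EuclideanSpace ℂ (Fin n)) M]
  [TopologicalSpace Y] [ChartedSpace (EuclideanSpace ℂ (Fin n)) Y]

/-- The zero-dimensional case. -/
theorem point_case [IsManifold 𝓘(ℂ, EuclideanSpace ℂ (Fin n)) 1 M] [ConnectedSpace M]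
    [Subsingleton (EuclideanSpace ℂ (Fin n))] :
    ∃ e : OpenPartialHomeomorph M (EuclideanSpace ℂ (Fin n)), e.source = univ ∧
      e.MDifferentiable 𝓘(ℂ, EuclideanSpace ℂ (Fin n)) 𝓘(ℂ, EuclideanSpace ℂ (Fin n)) ∧
      IsBoundedSymmetricDomain e.target := by
  obtain ⟨x⟩ : Nonempty M := inferInstance
  have h1 : ∀ y : M, y = x := by
    refine conn_ind (x0 := x) (fun y => ⟨_, (chartAt (EuclideanSpace ℂ (Fin n)) y).open_source,
      mem_chart_source _ y, fun a ha h z hz => ?_⟩) rfl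
    rw [← h]
    exact (chartAt (EuclideanSpace ℂ (Fin n)) y).injOn hz ha (Subsingleton.elim _ _)
  set e := chartAt (EuclideanSpace ℂ (Fin n)) x with he
  have hx : x ∈ e.source := mem_chart_source _ x
  have h2 : e.target = {e x} := eq_singleton_iff_unique_mem.2
    ⟨e.map_source hx, fun _ _ => Subsingleton.elim _ _⟩
  refine ⟨e, eq_univ_of_forall fun y => h1 y ▸ hx, mdifferentiable_chart x, e.open_target,
    h2 ▸ isConnected_singleton, h2 ▸ Bornology.isBounded_singleton, fun y _ => ?_⟩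
  exact ⟨id, ⟨differentiableOn_id, differentiableOn_id, fun _ h => h, fun _ h => h,
    fun _ _ => rfl, fun _ _ => rfl⟩, rfl, 1, one_pos, fun y _ _ _ => Subsingleton.elim _ _⟩

/-- Near a local peak point there is a quadratic peak point. -/
theorem exists_quadratic_peak {E : Type*} [NormedAddCommGroup E] [InnerProductSpace ℂ E]
    [Nontrivial E] [ProperSpace E] {Ω : Set E} (hΩ : IsOpen Ω) (h0 : (0 : E) ∈ closure Ω)
    {h : E → ℂ} (hh : DifferentiableOn ℂ h (ball 0 1)) (h1 : h 0 = 1)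
    (hlt : ∀ z ∈ closure Ω, z ∈ ball (0 : E) 1 → z ≠ 0 → ‖h z‖ < 1) :
    ∃ a ∈ ball (0 : E) 1, PeakPt Ω a := by
  have hsub : sphere (0 : E) (1 / 2) ⊆ ball 0 1 :=
    sphere_subset_closedBall.trans (closedBall_subset_ball (by norm_num))
  obtain ⟨m, hm0, hm1, hm⟩ : ∃ m : ℝ, 0 < m ∧ m < 1 ∧
      ∀ z ∈ closure Ω, z ∈ sphere (0 : E) (1 / 2) → ‖h z‖ < m := by
    rcases (closure Ω ∩ sphere (0 : E) (1 / 2)).eq_empty_or_nonempty with he | hne
    · exact ⟨1 / 2, by norm_num, by norm_num, fun z h2 h3 =>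
        absurd (he ▸ (⟨h2, h3⟩ : z ∈ closure Ω ∩ sphere (0 : E) (1 / 2))) (notMem_empty z)⟩
    · obtain ⟨z0, hz0, hmax⟩ := ((isCompact_sphere (0 : E) (1 / 2)).inter_left
        isClosed_closure).exists_isMaxOn hne
        (hh.continuousOn.norm.mono (inter_subset_right.trans hsub))
      have h2 : ‖h z0‖ < 1 := hlt z0 hz0.1 (hsub hz0.2) (by
        rintro rfl
        simpa using hz0.2)
      have h3 := norm_nonneg (h z0)
      refine ⟨(‖h z0‖ + 1) / 2, by linarith, by linarith, fun z h4 h5 => ?_⟩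
      have h6 : ‖h z‖ ≤ ‖h z0‖ := hmax ⟨h4, h5⟩
      linarith
  have hlog : 0 < -Real.log m := neg_pos.2 (Real.log_neg hm0 hm1)
  obtain ⟨a, ha, hpk, -⟩ := exists_peakPt_of_lt hΩ (q := 0) (δ₁ := 1 / 2) (δ := 1)
    (c := 4 * -Real.log m) (κ := 1) (by norm_num) (by positivity) one_pos (P := fun _ => 0)
    (differentiableOn_const _) hh h0 (mem_ball_self (by norm_num)) (by rw [h1]; exact one_ne_zero)
    (fun z hz hzs => by
      have h2 : ‖z‖ = 1 / 2 := mem_sphere_zero_iff_norm.1 hzs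
      have h3 : (1 : ℝ) * (4 * -Real.log m * ‖z - 0‖ ^ 2 - (0 : ℂ).re) = -Real.log m := by
        rw [sub_zero, h2, Complex.zero_re]
        ring
      rw [h3, Real.exp_neg, Real.exp_log hm0, h1]
      simp only [sub_self, norm_zero, ne_eq, OfNat.ofNat_ne_zero, not_false_eq_true, zero_pow,
        mul_zero, Complex.zero_re, Real.exp_zero, norm_one, mul_one]
      rw [inv_mul_lt_iff₀ hm0, mul_one]
      exact hm z hz hzs)
  exact ⟨a, ball_subset_ball (by norm_num) ha, hpk⟩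

theorem core [IsManifold 𝓘(ℂ, EuclideanSpace ℂ (Fin n)) 1 M] [ConnectedSpace M] [T2Space Y]
    (ι : OpenPartialHomeomorph M Y) (hι : ι.source = univ)
    (hιd : ι.MDifferentiable 𝓘(ℂ, EuclideanSpace ℂ (Fin n)) 𝓘(ℂ, EuclideanSpace ℂ (Fin n)))
    {q : Y} (hq : q ∈ closure ι.target) {O : Set Y} (hO : IsOpen O) (hqO : q ∈ O) {P : Y → ℂ}
    (hP : MDifferentiableOn 𝓘(ℂ, EuclideanSpace ℂ (Fin n)) 𝓘(ℂ, ℂ) P O) (hPq : P q = 1)
    (hPlt : ∀ y ∈ closure ι.target ∩ O, y ≠ q → ‖P y‖ < 1)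
    (φ : OpenPartialHomeomorph Y (EuclideanSpace ℂ (Fin n)))
    (hφd : φ.MDifferentiable 𝓘(ℂ, EuclideanSpace ℂ (Fin n)) 𝓘(ℂ, EuclideanSpace ℂ (Fin n)))
    (hqφ : q ∈ φ.source) (hsa : IsSemianalyticAt (φ '' (φ.source ∩ ι.target)) (φ q))
    (Γ : Type*) [Group Γ] [MulAction Γ M]
    (hΓ : ∀ (γ : Γ) (x : M),
      MD (EuclideanSpace ℂ (Fin n)) (EuclideanSpace ℂ (Fin n)) (fun x : M => γ • x) x)
    (hpd : ∀ K : Set M, IsCompact K → {γ : Γ | ∃ x ∈ K, γ • x ∈ K}.Finite)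
    (hco : ∃ K : Set M, IsCompact K ∧ ∀ x : M, ∃ γ : Γ, γ • x ∈ K) :
    ∃ e : OpenPartialHomeomorph M (EuclideanSpace ℂ (Fin n)), e.source = univ ∧
      e.MDifferentiable 𝓘(ℂ, EuclideanSpace ℂ (Fin n)) 𝓘(ℂ, EuclideanSpace ℂ (Fin n)) ∧
      IsBoundedSymmetricDomain e.target := by
  rcases subsingleton_or_nontrivial (EuclideanSpace ℂ (Fin n)) with hnt | hnt
  · exact point_case
  have hxs : ∀ x : M, x ∈ ι.source := fun x => hι ▸ mem_univ x
  have hιc : Continuous ι := continuousOn_univ.1 (hι ▸ ι.continuousOn)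
  have hT2 : T2Space M := T2Space.of_injective_continuous
    (fun x y h => ι.injOn (hxs x) (hxs y) h) hιc
  set ψ := ι.trans φ with hψ
  have hψd : ψ.MDifferentiable 𝓘(ℂ, EuclideanSpace ℂ (Fin n)) 𝓘(ℂ, EuclideanSpace ℂ (Fin n)) :=
    hιd.trans hφd
  have hA : φ '' (φ.source ∩ ι.target) = ψ.target := by
    rw [φ.image_source_inter_eq', hψ, OpenPartialHomeomorph.trans_target]
  rw [hA] at hsa
  obtain ⟨W2, hW2, hqW2, hcomb⟩ := hsa
  obtain ⟨σ, π, W, hp, hσ0, hWW⟩ := H959.exists_par_in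
    ((φ.isOpen_inter_preimage_symm hO).inter hW2)
    ⟨⟨φ.map_source hqφ, by rw [mem_preimage, φ.left_inv hqφ]; exact hqO⟩, hqW2⟩
    (H959.manPt_open isOpen_univ (mem_univ (φ q)))
  have hσd : ∀ e ∈ ball (0 : EuclideanSpace ℂ (Fin n)) 1, DifferentiableAt ℂ σ e := fun e he =>
    hp.diffσ.differentiableAt (isOpen_ball.mem_nhds he)
  have ht : ∀ e ∈ ball (0 : EuclideanSpace ℂ (Fin n)) 1, σ e ∈ φ.target := fun e he =>
    (hWW (hp.mapsσ he).2).1.1
  have hθ : ∀ e ∈ ball (0 : EuclideanSpace ℂ (Fin n)) 1, MD (EuclideanSpace ℂ (Fin n))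
      (EuclideanSpace ℂ (Fin n)) (fun e => φ.symm (σ e)) e := fun e he =>
    MD.cmp (g := φ.symm) (f := σ) (hφd.mdifferentiableAt_symm (ht e he)) (md_of_diff (hσd e he))
  have h01 : (0 : EuclideanSpace ℂ (Fin n)) ∈ ball (0 : EuclideanSpace ℂ (Fin n)) 1 :=
    mem_ball_self one_pos
  obtain ⟨a, ha, hpp⟩ : ∃ a ∈ ball (0 : EuclideanSpace ℂ (Fin n)) 1,
      PeakPt (dom σ ψ.target) a := by
    refine exists_quadratic_peak (hp.isOpen_dom ψ.open_target (univ_inter _).symm) ?_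
      (h := fun e => P (φ.symm (σ e))) (fun e he => ?_) (by rw [hσ0, φ.left_inv hqφ, hPq])
      fun e he heb he0 => hPlt _ ⟨?_, (hWW (hp.mapsσ heb).2).1.2⟩ fun h => he0 ?_
    · have hqW : φ q ∈ W := hσ0 ▸ (hp.mapsσ h01).2
      have h1 : ContinuousAt (fun y => π (φ y)) q :=
        (hp.diffπ.differentiableAt (hp.isOpen.mem_nhds hqW)).continuousAt.comp
          (φ.continuousAt hqφ)
      have h2 := h1.continuousWithinAt.mem_closure
        ((φ.isOpen_inter_preimage hp.isOpen).inter_closure ⟨⟨hqφ, hqW⟩, hq⟩)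
        (t := dom σ ψ.target) (fun y hy => ⟨hp.mapsπ ⟨mem_univ _, hy.1.2⟩, by
          rw [hp.right _ ⟨mem_univ _, hy.1.2⟩, ← hA]
          exact ⟨y, ⟨hy.1.1, hy.2⟩, rfl⟩⟩)
      rwa [← hσ0, hp.left 0 h01] at h2
    · have h1 : φ.symm (σ e) ∈ O := (hWW (hp.mapsσ he).2).1.2
      exact (MD.cmp (g := P) (f := fun e => φ.symm (σ e))
        ((hP _ h1).mdifferentiableAt (hO.mem_nhds h1)) (hθ e he)).diff.differentiableWithinAt
    · exact (hθ e heb).cont.continuousWithinAt.mem_closure he fun z hz => hz.2.2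
    · have h1 : σ e = σ 0 := by
        rw [hσ0, ← h, φ.right_inv (ht e heb)]
      rw [← hp.left e heb, h1, hp.left 0 h01]
  have hmaps : MapsTo σ (ball 0 1) W2 := fun e he => (hWW (hp.mapsσ he).2).2
  obtain ⟨F, hF, hFn, hF0⟩ := H959.exists_chart_function_an hcomb hp.diffσ hmaps
  have hdom : {e | e ∈ ball (0 : EuclideanSpace ℂ (Fin n)) 1 ∧ σ e ∈ ψ.target ∩ W2} =
      dom σ ψ.target := by
    ext e
    exact ⟨fun h => ⟨h.1, h.2.1⟩, fun h => ⟨h.1, h.2, hmaps h.1⟩⟩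
  rw [hdom] at hF0
  obtain ⟨K, hK, hKco⟩ := hco
  have haut : ∀ γ : Γ, Aut (EuclideanSpace ℂ (Fin n)) (fun x : M => γ • x)
      (fun x : M => γ⁻¹ • x) := fun γ =>
    ⟨hΓ γ, hΓ γ⁻¹, fun x => inv_smul_smul γ x, fun x => smul_inv_smul γ x⟩
  have hM : MSet (fun e => ψ.symm (σ e)) (fun x => π (ψ x)) (dom σ ψ.target)
      (ψ.source ∩ ψ ⁻¹' W) K := by
    refine ⟨⟨hp.isOpen_dom ψ.open_target (univ_inter _).symm, ψ.isOpen_inter_preimage hp.isOpen,
      fun e he => MD.cmp (g := ψ.symm) (f := σ) (hψd.mdifferentiableAt_symm he.2)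
        (md_of_diff (hσd e he.1)),
      fun x hx => MD.cmp (g := π) (f := ψ)
        (md_of_diff (hp.diffπ.differentiableAt (hp.isOpen.mem_nhds hx.2)))
        (hψd.mdifferentiableAt hx.1), fun e he => ⟨ψ.map_target he.2, ?_⟩,
      fun x hx => ⟨hp.mapsπ ⟨mem_univ _, hx.2⟩, ?_⟩, fun e he => ?_, fun x hx => ?_⟩,
      fun e he => he.1, fun r hr => ?_, hK, fun x => ?_⟩
    · rw [mem_preimage, ψ.right_inv he.2]
      exact (hp.mapsσ he.1).2
    · rw [hp.right _ ⟨mem_univ _, hx.2⟩]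
      exact ψ.map_source hx.1
    · rw [ψ.right_inv he.2, hp.left e he.1]
    · rw [hp.right _ ⟨mem_univ _, hx.2⟩, ψ.left_inv hx.1]
    · have hb : closedBall (0 : EuclideanSpace ℂ (Fin n)) r ⊆ ball 0 1 := closedBall_subset_ball hr
      have h1 : IsCompact ((fun e => φ.symm (σ e)) '' closedBall 0 r) :=
        (isCompact_closedBall _ _).image_of_continuousOn fun e he =>
          ((φ.continuousAt_symm (ht e (hb he))).comp
            (hσd e (hb he)).continuousAt).continuousWithinAt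
      have h2 : {x | x ∈ ψ.source ∩ ψ ⁻¹' W ∧ ‖π (ψ x)‖ ≤ r} =
          ι ⁻¹' ((fun e => φ.symm (σ e)) '' closedBall 0 r) := by
        ext x
        constructor
        · rintro ⟨⟨h3, h4⟩, h5⟩
          refine ⟨π (ψ x), mem_closedBall_zero_iff.2 h5, ?_⟩
          change φ.symm (σ (π (ψ x))) = ι x
          rw [hp.right _ ⟨mem_univ _, h4⟩]
          exact φ.left_inv h3.2
        · rintro ⟨e, he, h3⟩
          have h4 : ι x = φ.symm (σ e) := h3.symm
          have h5 : ψ x = σ e := by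
            change φ (ι x) = σ e
            rw [h4, φ.right_inv (ht e (hb he))]
          refine ⟨⟨⟨hxs x, ?_⟩, ?_⟩, ?_⟩
          · change ι x ∈ φ.source
            rw [h4]
            exact φ.map_target (ht e (hb he))
          · rw [mem_preimage, h5]
            exact (hp.mapsσ (hb he)).2
          · rw [h5, hp.left e (hb he)]
            exact mem_closedBall_zero_iff.1 he
      rw [h2]
      exact h1.isClosed.preimage hιc
    · obtain ⟨γ, hγ⟩ := hKco x
      have h1 := haut γ⁻¹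
      rw [inv_inv] at h1
      exact ⟨_, _, h1, hγ⟩
  obtain ⟨U1, h, f, hUb, hc1, k, D, B, s, C, hs, hC, hcone, hbi, -⟩ := hM.siegel ha hpp hF hFn hF0
  have hfc : Continuous f := continuous_iff_continuousAt.2 fun x => (hc1.dπ x (mem_univ x)).cont
  have hhc : ContinuousOn h U1 := fun y hy => (hc1.dσ y hy).cont.continuousWithinAt
  have hfU : ∀ x, f x ∈ U1 := fun x => hc1.mπ (mem_univ x)
  have hhf : ∀ x, h (f x) = x := fun x => hc1.right x (mem_univ x)
  let _ : MulAction Γ U1 :=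
    { smul := fun γ y => ⟨f (γ • h y), hfU _⟩
      one_smul := fun y => Subtype.ext (by
        change f ((1 : Γ) • h y) = y
        rw [one_smul, hc1.left _ y.2])
      mul_smul := fun a b y => Subtype.ext (by
        change f ((a * b) • h y) = f (a • h (f (b • h y)))
        rw [hhf, mul_smul]) }
  have hsm : ∀ (γ : Γ) (y : U1), ((γ • y : U1) : EuclideanSpace ℂ (Fin n)) = f (γ • h y) :=
    fun _ _ => rfl
  have hconn : IsConnected U1 := by
    have h1 : U1 = range f := by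
      ext y
      exact ⟨fun hy => ⟨_, hc1.left y hy⟩, by rintro ⟨x, rfl⟩; exact hfU x⟩
    rw [h1]
    exact isConnected_range hfc
  have hbsd : IsBoundedSymmetricDomain U1 := by
    refine V.isBoundedSymmetricDomain_of_siegel (Γ := Γ) hc1.oΩ hconn hUb hs hC hcone hbi
      (fun γ => ⟨fun y => f (γ • h y), (hc1.biholo (haut γ)).diffOn, fun _ => rfl⟩)
      (fun L hL => ?_) ⟨(fun x => (⟨f x, hfU x⟩ : U1)) '' K,
        hK.image (hfc.subtype_mk _), fun y => ?_⟩
    · refine (hpd ((fun y : U1 => h y) '' L) (hL.image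
        (continuousOn_iff_continuous_domRestrict.1 hhc))).subset ?_
      rintro γ ⟨y, hy, hγ⟩
      exact ⟨h y, ⟨y, hy, rfl⟩, γ • y, hγ, by simp only [hsm, hhf]⟩
    · obtain ⟨γ, hγ⟩ := hKco (h y)
      exact ⟨γ, _, hγ, rfl⟩
  refine ⟨
    { toFun := f
      invFun := h
      source := univ
      target := U1
      map_source' := fun x _ => hfU x
      map_target' := fun _ _ => mem_univ _
      left_inv' := fun x _ => hhf x
      right_inv' := hc1.left
      open_source := isOpen_univ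
      open_target := hc1.oΩ
      continuousOn_toFun := hfc.continuousOn
      continuousOn_invFun := hhc }, rfl, ⟨fun x hx => ?_, fun y hy => ?_⟩, hbsd⟩
  · exact MDifferentiableAt.mdifferentiableWithinAt (hc1.dπ x hx)
  · exact MDifferentiableAt.mdifferentiableWithinAt (hc1.dσ y hy)

/-- A point of a compact set at which the norm of a holomorphic map with discrete fibres is maximal
is a local peak point. -/
theorem exists_peak {N : ℕ} {C O : Set Y} (hC : IsCompact C) (hne : C.Nonempty) (hO : IsOpen O)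
    (hCO : C ⊆ O) {F : Y → EuclideanSpace ℂ (Fin N)}
    (hF : MDifferentiableOn 𝓘(ℂ, EuclideanSpace ℂ (Fin n)) 𝓘(ℂ, EuclideanSpace ℂ (Fin N)) F O)
    (hfib : ∀ y ∈ C, ∀ᶠ z in 𝓝[≠] y, F z ≠ F y) :
    ∃ q ∈ C, ∃ W, IsOpen W ∧ q ∈ W ∧ ∃ P : Y → ℂ,
      MDifferentiableOn 𝓘(ℂ, EuclideanSpace ℂ (Fin n)) 𝓘(ℂ, ℂ) P W ∧ P q = 1 ∧
      ∀ y ∈ C ∩ W, y ≠ q → ‖P y‖ < 1 := by
  obtain ⟨q, hq, hmax⟩ := hC.exists_isMaxOn hne (hF.continuousOn.mono hCO).norm
  obtain ⟨W, hW, hqW, hWF⟩ := mem_nhdsWithin.1 (hfib q hq)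
  have hd : Differentiable ℂ fun w : EuclideanSpace ℂ (Fin N) =>
      Complex.exp (innerSL ℂ (F q) (w - F q)) :=
    ((innerSL ℂ (F q)).differentiable.comp (differentiable_id.sub_const _)).cexp
  refine ⟨q, hq, W ∩ O, hW.inter hO, ⟨hqW, hCO hq⟩,
    fun y => Complex.exp (innerSL ℂ (F q) (F y - F q)), fun y hy => ?_, by simp,
    fun y hy hyq => ?_⟩
  · exact MDifferentiableAt.mdifferentiableWithinAt (MD.cmp (f := F) (md_of_diff (hd _))
      ((hF y hy.2).mdifferentiableAt (hO.mem_nhds hy.2)))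
  · have h1 : F y ≠ F q := hWF ⟨hy.2.1, hyq⟩
    have h2 : 0 < ‖F y - F q‖ := norm_pos_iff.2 (sub_ne_zero.2 h1)
    have h3 : ‖F y‖ ≤ ‖F q‖ := hmax hy.1
    have h4 := norm_sub_sq_identity (F y) (F q) 0
    rw [sub_zero, sub_zero] at h4
    have h5 : ‖F y‖ ^ 2 ≤ ‖F q‖ ^ 2 := pow_le_pow_left₀ (norm_nonneg _) h3 2
    rw [Complex.norm_exp, Real.exp_lt_one_iff, innerSL_apply_apply]
    nlinarith

/-- The group of deck transformations. -/
def deck {M X : Type*} [TopologicalSpace M] (p : M → X) : Subgroup (Equiv.Perm M) where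
  carrier := {g | Continuous g ∧ Continuous g.symm ∧ ∀ x, p (g x) = p x}
  one_mem' := ⟨continuous_id, continuous_id, fun _ => rfl⟩
  mul_mem' := fun {a b} ha hb => ⟨ha.1.comp hb.1, hb.2.1.comp ha.2.1, fun x => by
    rw [Equiv.Perm.mul_apply, ha.2.2, hb.2.2]⟩
  inv_mem' := fun {a} ha => ⟨ha.2.1, ha.1, fun x => by
    have h := ha.2.2 (a.symm x)
    rw [Equiv.apply_symm_apply] at h
    exact h.symm⟩

section cover

variable {M X : Type*} [TopologicalSpace M] [TopologicalSpace X] {p : M → X}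

theorem deck_trans [SimplyConnectedSpace M] [LocallyPathConnectedSpace M] (hp : IsCoveringMap p)
    {x y : M} (h : p x = p y) : ∃ γ : deck p, γ • x = y := by
  obtain ⟨a, ⟨ha1, ha2⟩, -⟩ := hp.existsUnique_continuousMap_lifts ⟨p, hp.continuous⟩ x y h.symm
  obtain ⟨b, ⟨hb1, hb2⟩, -⟩ := hp.existsUnique_continuousMap_lifts ⟨p, hp.continuous⟩ y x h
  have ha3 : ∀ z, p (a z) = p z := fun z => congrFun ha2 z
  have hb3 : ∀ z, p (b z) = p z := fun z => congrFun hb2 z
  have h1 : (b ∘ a : M → M) = id := hp.eq_of_comp_eq (b.continuous.comp a.continuous)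
    continuous_id (funext fun z => by simp [ha3, hb3]) x (by simp [ha1, hb1])
  have h2 : (a ∘ b : M → M) = id := hp.eq_of_comp_eq (a.continuous.comp b.continuous)
    continuous_id (funext fun z => by simp [ha3, hb3]) y (by simp [ha1, hb1])
  exact ⟨⟨⟨a, b, fun z => congrFun h1 z, fun z => congrFun h2 z⟩, a.continuous, b.continuous,
    ha3⟩, ha1⟩

theorem deck_finite [SimplyConnectedSpace M] [LocallyPathConnectedSpace M] [T2Space X]
    (hp : IsCoveringMap p) (K : Set M) (hK : IsCompact K) :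
    {γ : deck p | ∃ x ∈ K, γ • x ∈ K}.Finite := by
  have key : ∀ z : M × M, ∃ O ∈ 𝓝 z, ∃ γ0 : deck p, ∀ w ∈ O, ∀ γ : deck p,
      γ • w.1 = w.2 → γ = γ0 := by
    rintro ⟨x, y⟩
    by_cases h : p x = p y
    · obtain ⟨γ0, h0⟩ := deck_trans hp h
      obtain ⟨V, hV, hyV, hinj⟩ := hp.isLocalHomeomorph.isLocallyInjective y
      refine ⟨((γ0 : Equiv.Perm M) ⁻¹' V) ×ˢ V, prod_mem_nhds ((hV.preimage γ0.2.1).mem_nhds ?_)
        (hV.mem_nhds hyV), γ0, fun w hw γ hγ => ?_⟩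
      · change γ0 • x ∈ V
        rwa [h0]
      · have h1 : (γ : Equiv.Perm M) w.1 = w.2 := hγ
        have h2 : (γ : Equiv.Perm M) w.1 = (γ0 : Equiv.Perm M) w.1 :=
          hinj (h1 ▸ hw.2) hw.1 (by rw [γ.2.2.2, γ0.2.2.2])
        have h3 := hp.eq_of_comp_eq γ.2.1 γ0.2.1
          (funext fun z => by simp only [Function.comp_apply, γ.2.2.2, γ0.2.2.2]) w.1 h2
        exact Subtype.ext (Equiv.ext fun z => congrFun h3 z)
    · refine ⟨{w | p w.1 ≠ p w.2}, (isOpen_ne_fun (hp.continuous.comp continuous_fst)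
        (hp.continuous.comp continuous_snd)).mem_nhds h, 1, fun w hw γ hγ => ?_⟩
      have h1 : (γ : Equiv.Perm M) w.1 = w.2 := hγ
      exact absurd (by rw [← h1, γ.2.2.2]) hw
  choose O hO γ0 hγ0 using key
  obtain ⟨t, -, ht⟩ := (hK.prod hK).elim_nhds_subcover O fun z _ => hO z
  refine (t.finite_toSet.image γ0).subset ?_
  rintro γ ⟨x, hx, hγ⟩
  obtain ⟨z, hz, hxz⟩ := mem_iUnion₂.1 (ht (mk_mem_prod hx hγ))
  exact ⟨z, hz, (hγ0 z _ hxz γ rfl).symm⟩

theorem deck_cocompact [SimplyConnectedSpace M] [LocallyPathConnectedSpace M]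
    [LocallyCompactSpace M] [CompactSpace X] (hp : IsCoveringMap p)
    (hs : Function.Surjective p) :
    ∃ K : Set M, IsCompact K ∧ ∀ x : M, ∃ γ : deck p, γ • x ∈ K := by
  choose N hNc hNx using fun x : M => exists_compact_mem_nhds x
  obtain ⟨t, ht⟩ := isCompact_univ.elim_finite_subcover (fun x : M => p '' interior (N x))
    (fun x => hp.isOpenMap _ isOpen_interior) (by
      intro y _
      obtain ⟨x, rfl⟩ := hs y
      exact mem_iUnion.2 ⟨x, x, mem_interior_iff_mem_nhds.2 (hNx x), rfl⟩)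
  refine ⟨⋃ x ∈ t, N x, t.isCompact_biUnion fun x _ => hNc x, fun x => ?_⟩
  obtain ⟨y, hy, z, hz, hzx⟩ := mem_iUnion₂.1 (ht (mem_univ (p x)))
  obtain ⟨γ, hγ⟩ := deck_trans hp hzx.symm
  exact ⟨γ, hγ ▸ mem_biUnion hy (interior_subset hz)⟩

end cover

theorem deck_hol {X : Type*} [TopologicalSpace X] [ChartedSpace (EuclideanSpace ℂ (Fin n)) X]
    {p : M → X}
    (hp : IsLocalDiffeomorph 𝓘(ℂ, EuclideanSpace ℂ (Fin n)) 𝓘(ℂ, EuclideanSpace ℂ (Fin n)) 1 p)
    (γ : deck p) (x : M) :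
    MD (EuclideanSpace ℂ (Fin n)) (EuclideanSpace ℂ (Fin n)) (fun x : M => γ • x) x := by
  have h1 := hp ((γ : Equiv.Perm M) x)
  have h2 := h1.localInverse_mdifferentiableAt one_ne_zero
  rw [γ.2.2.2] at h2
  refine (MD.cmp (g := h1.localInverse) (f := p) h2
    ((hp x).mdifferentiableAt one_ne_zero)).congr ?_
  filter_upwards [γ.2.1.continuousAt.eventually h1.localInverse_eventuallyEq_left] with y hy
  have h3 : h1.localInverse (p ((γ : Equiv.Perm M) y)) = (γ : Equiv.Perm M) y := hy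
  rw [γ.2.2.2] at h3
  exact h3.symm

end Vale.Agent.N274
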