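import Vale.Agent.P274.H959.Main
import Vale.Agent.N274.Attr

/-! Complex manifolds with a cocompact group of automorphisms and an end which has a local peak
point: attraction, tautness, normal families. -/

open Filter Metric Set Topology
open scoped Manifold

namespace Vale.Agent.N274

open Vale.Agent.P274

/-- Holomorphic at a point, for maps between complex manifolds with model spaces `E`, `F`. -/
abbrev MD (E F : Type*) [NormedAddCommGroup E] [NormedSpace ℂ E] [NormedAddCommGroup F]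
    [NormedSpace ℂ F] {M N : Type*} [TopologicalSpace M] [ChartedSpace E M] [TopologicalSpace N]
    [ChartedSpace F N] (f : M → N) (x : M) : Prop :=
  MDifferentiableAt 𝓘(ℂ, E) 𝓘(ℂ, F) f x

section basic

variable {E F G : Type*} [NormedAddCommGroup E] [NormedSpace ℂ E] [NormedAddCommGroup F]
  [NormedSpace ℂ F] [NormedAddCommGroup G] [NormedSpace ℂ G]
  {M N P : Type*} [TopologicalSpace M] [ChartedSpace E M] [TopologicalSpace N] [ChartedSpace F N]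
  [TopologicalSpace P] [ChartedSpace G P]

theorem MD.cmp {g : N → P} {f : M → N} {x : M} (hg : MD F G g (f x)) (hf : MD E F f x) :
    MD E G (fun y => g (f y)) x := MDifferentiableAt.comp x hg hf

theorem MD.diff {f : E → F} {x : E} (h : MD E F f x) : DifferentiableAt ℂ f x :=
  mdifferentiableAt_iff_differentiableAt.1 h

theorem md_of_diff {f : E → F} {x : E} (h : DifferentiableAt ℂ f x) : MD E F f x :=
  mdifferentiableAt_iff_differentiableAt.2 h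

theorem MD.cont {f : M → N} {x : M} (h : MD E F f x) : ContinuousAt f x :=
  MDifferentiableAt.continuousAt h

theorem MD.congr {f g : M → N} {x : M} (h : MD E F f x) (hfg : ∀ᶠ y in 𝓝 x, g y = f y) :
    MD E F g x := MDifferentiableAt.congr_of_eventuallyEq h hfg

/-- `σ : Ω → W` is biholomorphic with inverse `π`. -/
structure Ch (σ : E → M) (π : M → E) (Ω : Set E) (W : Set M) : Prop where
  oΩ : IsOpen Ω
  oW : IsOpen W
  dσ : ∀ e ∈ Ω, MD E E σ e
  dπ : ∀ x ∈ W, MD E E π x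
  mσ : MapsTo σ Ω W
  mπ : MapsTo π W Ω
  left : ∀ e ∈ Ω, π (σ e) = e
  right : ∀ x ∈ W, σ (π x) = x

variable (E) in
/-- `g` is an automorphism with inverse `g'`. -/
structure Aut (g g' : M → M) : Prop where
  hol : ∀ x, MD E E g x
  hol' : ∀ x, MD E E g' x
  left : ∀ x, g' (g x) = x
  right : ∀ x, g (g' x) = x

theorem exists_ch [IsManifold 𝓘(ℂ, E) 1 M] (x : M) :
    ∃ (σ : E → M) (π : M → E) (W : Set M), Ch σ π (ball 0 1) W ∧ σ 0 = x ∧ π x = 0 ∧ x ∈ W := by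
  set e := chartAt E x with he
  have hed : e.MDifferentiable 𝓘(ℂ, E) 𝓘(ℂ, E) := mdifferentiable_chart x
  have hx : x ∈ e.source := mem_chart_source E x
  obtain ⟨r, hr, hrb⟩ := Metric.isOpen_iff.1 e.open_target _ (e.map_source hx)
  have hr0 : (r : ℂ) ≠ 0 := Complex.ofReal_ne_zero.2 hr.ne'
  have h1 : ∀ v ∈ ball (0 : E) 1, e x + (r : ℂ) • v ∈ ball (e x) r := fun v hv => by
    rw [mem_ball, dist_eq_norm, add_sub_cancel_left, norm_smul, Complex.norm_real,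
      Real.norm_of_nonneg hr.le]
    have := mem_ball_zero_iff.1 hv
    nlinarith
  refine ⟨fun v => e.symm (e x + (r : ℂ) • v), fun y => (r : ℂ)⁻¹ • (e y - e x),
    e.source ∩ e ⁻¹' ball (e x) r, ⟨isOpen_ball, e.isOpen_inter_preimage isOpen_ball,
      fun v hv => ?_, fun y hy => ?_, fun v hv => ?_, fun y hy => ?_, fun v hv => ?_,
      fun y hy => ?_⟩, ?_, ?_, hx, mem_ball_self hr⟩
  · exact MD.cmp (g := e.symm) (f := fun v : E => e x + (r : ℂ) • v)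
      (hed.mdifferentiableAt_symm (hrb (h1 v hv))) (md_of_diff (by fun_prop))
  · exact MD.cmp (g := fun w : E => (r : ℂ)⁻¹ • (w - e x)) (f := e) (md_of_diff (by fun_prop))
      (hed.mdifferentiableAt hy.1)
  · refine ⟨e.map_target (hrb (h1 v hv)), ?_⟩
    rw [mem_preimage, e.right_inv (hrb (h1 v hv))]
    exact h1 v hv
  · have h2 : ‖e y - e x‖ < r := mem_ball_iff_norm.1 hy.2
    rw [mem_ball_zero_iff, norm_smul, norm_inv, Complex.norm_real, Real.norm_of_nonneg hr.le,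
      inv_mul_lt_iff₀ hr, mul_one]
    exact h2
  · rw [e.right_inv (hrb (h1 v hv)), add_sub_cancel_left, smul_smul, inv_mul_cancel₀ hr0, one_smul]
  · rw [smul_smul, mul_inv_cancel₀ hr0, one_smul, add_sub_cancel, e.left_inv hy.1]
  · simp only [smul_zero, add_zero]
    exact e.left_inv hx
  · simp

theorem Ch.isOpen_pre {σ : E → M} {π : M → E} {Ω : Set E} {W : Set M} (h : Ch σ π Ω W)
    {O : Set E} (hO : IsOpen O) : IsOpen (W ∩ π ⁻¹' O) :=
  ContinuousOn.isOpen_inter_preimage (fun x hx => (h.dπ x hx).cont.continuousWithinAt) h.oW hO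

theorem Ch.isOpen_pre' {σ : E → M} {π : M → E} {Ω : Set E} {W : Set M} (h : Ch σ π Ω W)
    {O : Set M} (hO : IsOpen O) : IsOpen (Ω ∩ σ ⁻¹' O) :=
  ContinuousOn.isOpen_inter_preimage (fun x hx => (h.dσ x hx).cont.continuousWithinAt) h.oΩ hO

/-- The standing assumptions: an end chart and a compact set meeting every orbit. -/
structure MSet (τ : E → M) (π : M → E) (Ω : Set E) (W K : Set M) : Prop where
  ch : Ch τ π Ω W
  sub : Ω ⊆ ball 0 1
  closed : ∀ r < 1, IsClosed {x | x ∈ W ∧ ‖π x‖ ≤ r}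
  cpt : IsCompact K
  co : ∀ x : M, ∃ g g', Aut E g g' ∧ g' x ∈ K

/-- `x` is in the end chart, close to `q`. -/
def Near (W : Set M) (π : M → E) (q : E) (ε : ℝ) (x : M) : Prop := x ∈ W ∧ ‖π x - q‖ < ε

/-- Locally uniformly bounded families of holomorphic maps on a manifold. -/
def LocBddM (E : Type*) [NormedAddCommGroup E] [NormedSpace ℂ E] [ChartedSpace E M] {ι : Type*}
    (l : Filter ι) (f : ι → M → F) (x : M) : Prop :=
  ∃ V : Set M, IsOpen V ∧ x ∈ V ∧ ∃ C : ℝ, ∀ᶠ j in l, ∀ y ∈ V, MD E F (f j) y ∧ ‖f j y‖ ≤ C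

theorem locBdd_ch {ι : Type*} {l : Filter ι} {f : ι → M → F} (h : ∀ x, LocBddM E l f x)
    {σ : E → M} {π : M → E} {Ω : Set E} {W : Set M} (hp : Ch σ π Ω W) :
    LocBdd l (fun j e => f j (σ e)) Ω := by
  intro e he
  obtain ⟨V, hV, hxV, C, hC⟩ := h (σ e)
  obtain ⟨r, hr, hrS⟩ := Metric.isOpen_iff.1 (hp.isOpen_pre' hV) e ⟨he, hxV⟩
  refine ⟨r, hr, C, ?_⟩
  filter_upwards [hC] with j hj
  exact ⟨fun y hy => (MD.cmp (hj _ (hrS hy).2).1
    (hp.dσ y (hrS hy).1)).diff.differentiableWithinAt, fun y hy => (hj _ (hrS hy).2).2⟩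

theorem Ch.locBddM {ι : Type*} {l : Filter ι} {f : ι → M → F}
    {σ : E → M} {π : M → E} {Ω : Set E} {W : Set M} (hp : Ch σ π Ω W)
    (h : LocBdd l (fun j e => f j (σ e)) Ω) {x : M} (hx : x ∈ W) : LocBddM E l f x := by
  obtain ⟨r, hr, C, hC⟩ := h (π x) (hp.mπ hx)
  refine ⟨W ∩ π ⁻¹' ball (π x) r, hp.isOpen_pre isOpen_ball, ⟨hx, mem_ball_self hr⟩, C, ?_⟩
  filter_upwards [hC] with j hj y hy
  constructor
  · have h1 : MD E F (fun z => f j (σ (π z))) y :=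
      MD.cmp (g := fun e => f j (σ e)) (f := π)
        (md_of_diff (hj.1.differentiableAt (isOpen_ball.mem_nhds hy.2))) (hp.dπ y hy.1)
    refine h1.congr ?_
    filter_upwards [hp.oW.mem_nhds hy.1] with z hz
    rw [hp.right z hz]
  · have h1 : ‖f j (σ (π y))‖ ≤ C := hj.2 (π y) hy.2
    rwa [hp.right y hy.1] at h1

/-- Montel's theorem on manifolds. -/
theorem montelM [ProperSpace E] [ProperSpace F] [IsManifold 𝓘(ℂ, E) 1 M] {ι : Type*}
    (𝒰 : Ultrafilter ι) {f : ι → M → F} (hf : ∀ x, LocBddM E (𝒰 : Filter ι) f x) :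
    ∃ g : M → F, (∀ x, MD E F g x) ∧
      ∀ x, ∀ u : ι → M, Tendsto u 𝒰 (𝓝 x) → Tendsto (fun j => f j (u j)) 𝒰 (𝓝 (g x)) := by
  have key : ∀ x : M, ∃ (V : Set M) (g0 : M → F), IsOpen V ∧ x ∈ V ∧ (∀ y ∈ V, MD E F g0 y) ∧
      ∀ y ∈ V, ∀ u : ι → M, Tendsto u 𝒰 (𝓝 y) → Tendsto (fun j => f j (u j)) 𝒰 (𝓝 (g0 y)) := by
    intro x
    obtain ⟨σ, π, W, hp, -, -, hxW⟩ := exists_ch (E := E) x
    obtain ⟨g0, h1, h2⟩ := montel 𝒰 isOpen_ball (locBdd_ch hf hp)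
    refine ⟨W, fun y => g0 (π y), hp.oW, hxW, fun y hy => MD.cmp (g := g0) (f := π)
      (md_of_diff (h1.differentiableAt (isOpen_ball.mem_nhds (hp.mπ hy)))) (hp.dπ y hy),
      fun y hy u hu => ?_⟩
    refine (h2 _ (hp.mπ hy) _ ((hp.dπ y hy).cont.tendsto.comp hu)).congr' ?_
    filter_upwards [hu (hp.oW.mem_nhds hy)] with j hj
    simp only [Function.comp_apply]
    rw [hp.right _ hj]
  choose V g0 hV hxV hd hc using key
  refine ⟨fun x => g0 x x, fun x => (hd x x (hxV x)).congr ?_, fun x => hc x x (hxV x)⟩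
  filter_upwards [(hV x).mem_nhds (hxV x)] with y hy
  exact tendsto_nhds_unique (hc y y (hxV y) (fun _ => y) tendsto_const_nhds)
    (hc x y hy (fun _ => y) tendsto_const_nhds)

/-- Induction along a connected space. -/
theorem conn_ind [PreconnectedSpace M] {p : M → Prop}
    (h : ∀ x, ∃ V : Set M, IsOpen V ∧ x ∈ V ∧ ∀ y ∈ V, p y → ∀ z ∈ V, p z) {x0 : M}
    (h0 : p x0) : ∀ x, p x := by
  have h1 : IsClopen {x | p x} := by
    constructor
    · rw [← isOpen_compl_iff, isOpen_iff_mem_nhds]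
      intro x hx
      obtain ⟨V, hV, hxV, h2⟩ := h x
      exact mem_of_superset (hV.mem_nhds hxV) fun y hy hpy => hx (h2 y hy hpy x hxV)
    · rw [isOpen_iff_mem_nhds]
      intro x hx
      obtain ⟨V, hV, hxV, h2⟩ := h x
      exact mem_of_superset (hV.mem_nhds hxV) fun y hy => h2 x hxV hx y hy
  intro x
  have h2 : x ∈ {x | p x} := by
    rw [h1.eq_univ ⟨x0, h0⟩]
    exact mem_univ x
  exact h2

/-- Harnack principle on connected manifolds. -/
theorem harnackM [PreconnectedSpace M] [IsManifold 𝓘(ℂ, E) 1 M] {ι : Type*}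
    (𝒰 : Ultrafilter ι) {h : ι → M → ℂ}
    (hh : ∀ x, ∃ V : Set M, IsOpen V ∧ x ∈ V ∧ ∀ᶠ j in (𝒰 : Filter ι),
      ∀ y ∈ V, MD E ℂ (h j) y ∧ 0 ≤ (h j y).re)
    {k : ι → M} {k0 : M} (hk : Tendsto k 𝒰 (𝓝 k0)) {C : ℝ}
    (hkC : ∀ᶠ j in (𝒰 : Filter ι), ‖h j (k j)‖ ≤ C) : ∀ x, LocBddM E (𝒰 : Filter ι) h x := by
  have key : ∀ {σ : E → M} {π : M → E} {W : Set M}, Ch σ π (ball 0 1) W → ∀ {a : ι → M} {a0 : M},
      a0 ∈ W → Tendsto a 𝒰 (𝓝 a0) → ∀ {C : ℝ}, (∀ᶠ j in (𝒰 : Filter ι), ‖h j (a j)‖ ≤ C) →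
      ∀ x ∈ W, LocBddM E (𝒰 : Filter ι) h x := by
    intro σ π W hp a a0 ha0 ha C hC x hx
    refine hp.locBddM (locBdd_of_re_nonneg 𝒰 (convex_ball _ _).isPreconnected (fun e he => ?_)
      (hp.mπ ha0) ((hp.dπ a0 ha0).cont.tendsto.comp ha) (C := C) ?_) hx
    · obtain ⟨V, hV, hxV, h2⟩ := hh (σ e)
      obtain ⟨r, hr, hrS⟩ := Metric.isOpen_iff.1 (hp.isOpen_pre' hV) e ⟨he, hxV⟩
      refine ⟨r, hr, ?_⟩
      filter_upwards [h2] with j hj
      exact ⟨fun y hy => (MD.cmp (hj _ (hrS hy).2).1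
        (hp.dσ y (hrS hy).1)).diff.differentiableWithinAt, fun y hy => (hj _ (hrS hy).2).2⟩
    · filter_upwards [hC, ha (hp.oW.mem_nhds ha0)] with j h1 h2
      simp only [Function.comp_apply]
      rw [hp.right _ h2]
      exact h1
  refine conn_ind (x0 := k0) (fun x => ?_) ?_
  · obtain ⟨σ, π, W, hp, -, -, hxW⟩ := exists_ch (E := E) x
    refine ⟨W, hp.oW, hxW, fun y hy hpy => ?_⟩
    obtain ⟨V, -, hyV, C', hC'⟩ := hpy
    exact key hp (a := fun _ => y) hy tendsto_const_nhds (hC'.mono fun j hj => (hj y hyV).2)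
  · obtain ⟨σ, π, W, hp, -, -, hxW⟩ := exists_ch (E := E) k0
    exact key hp hxW hk hkC k0 hxW

end basic

section peak

variable {E : Type} {F : Type*} [NormedAddCommGroup E] [InnerProductSpace ℂ E]
  [FiniteDimensional ℂ E] [NormedAddCommGroup F] [NormedSpace ℂ F]
  {M : Type*} [TopologicalSpace M] [ChartedSpace E M]
  {τ : E → M} {π : M → E} {Ω : Set E} {W K : Set M} {q : E}

theorem MSet.prop (hM : MSet τ π Ω W K) (hq : q ∈ ball (0 : E) 1) (hpk : PeakPt Ω q)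
    {ε : ℝ} (hε : 0 < ε) : ∃ η > 0, ∀ (H : F → M) (s : F) (r : ℝ),
      (∀ y ∈ ball s r, MD F E H y) → ∀ y1 ∈ ball s (r / 16), Near W π q η (H y1) →
      ∀ y2 ∈ ball s (r / 16), Near W π q ε (H y2) := by
  have hps : ProperSpace E := FiniteDimensional.proper ℂ E
  obtain ⟨-, hqΩ, c, hc, δ, hδ, P, hP, hPq, hre⟩ := hpk
  obtain ⟨η, hη, h⟩ := attract (mem_ball_zero_iff.1 hq) hqΩ hc hδ hP hPq hre hε
  refine ⟨η, hη, fun H s r hH y1 hy1 h1 y2 hy2 => ?_⟩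
  set w : F := (4 : ℂ) • (y2 - y1) with hw
  have hw1 : ‖w‖ < r / 2 := by
    have h2 := dist_triangle_right y2 y1 s
    rw [mem_ball] at hy1 hy2
    rw [hw, norm_smul, ← dist_eq_norm]
    simp only [Complex.norm_ofNat]
    linarith
  have hin : ∀ ζ ∈ ball (0 : ℂ) 1, y1 + ζ • w ∈ ball s r := by
    intro ζ hζ
    have h2 : ‖ζ • w‖ ≤ ‖w‖ := by
      rw [norm_smul]
      exact mul_le_of_le_one_left (norm_nonneg _) (mem_ball_zero_iff.1 hζ).le
    have h3 := dist_triangle (y1 + ζ • w) y1 s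
    rw [dist_eq_norm (y1 + ζ • w) y1, add_sub_cancel_left] at h3
    have h4 : dist y1 s < r / 16 := hy1
    have h5 := norm_nonneg w
    rw [mem_ball]
    linarith
  set f : ℂ → M := fun ζ => H (y1 + ζ • w) with hf
  have hfd : ∀ ζ ∈ ball (0 : ℂ) 1, MD ℂ E f ζ := fun ζ hζ =>
    MD.cmp (g := H) (f := fun ζ : ℂ => y1 + ζ • w) (hH _ (hin ζ hζ)) (md_of_diff (by fun_prop))
  have hT : IsOpen (ball (0 : ℂ) 1 ∩ f ⁻¹' W) :=
    ContinuousOn.isOpen_inter_preimage (fun z hz => (hfd z hz).cont.continuousWithinAt)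
      isOpen_ball hM.ch.oW
  have h2 := h (ball (0 : ℂ) 1 ∩ f ⁻¹' W) (fun ζ => π (f ζ)) hT
    (fun z hz => (MD.cmp (hM.ch.dπ _ hz.2) (hfd z hz.1)).diff.differentiableWithinAt)
    (fun z hz => hM.ch.mπ hz.2)
    (fun r1 hr1 ζ hζ hcl => ⟨hζ, ((hM.closed r1 hr1).closure_subset
      ((hfd ζ hζ).cont.continuousWithinAt.mem_closure hcl fun z hz => ⟨hz.1.2, hz.2⟩)).1⟩)
    ⟨mem_ball_self one_pos, by simpa [hf] using h1.1⟩ (by simpa [hf] using h1.2) (1 / 4)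
    (by simp)
  have h3 : f (1 / 4) = H y2 := by
    simp only [hf, hw, smul_smul]
    norm_num
  simp only [mem_inter_iff, mem_preimage, h3] at h2
  exact ⟨h2.1.2, h2.2⟩

variable [IsManifold 𝓘(ℂ, E) 1 M] [PreconnectedSpace M]

/-- Automorphisms which move a point of `K` to the peak point converge to it everywhere. -/
theorem MSet.limit (hM : MSet τ π Ω W K) (hq : q ∈ ball (0 : E) 1) (hpk : PeakPt Ω q)
    {ι : Type*} (𝒰 : Ultrafilter ι) {g g' : ι → M → M} {kk : ι → M}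
    (hg : ∀ᶠ j in (𝒰 : Filter ι), Aut E (g j) (g' j) ∧ kk j ∈ K)
    (hlim : ∀ η > 0, ∀ᶠ j in (𝒰 : Filter ι), Near W π q η (g j (kk j))) :
    ∀ x, ∀ ε > 0, ∃ V : Set M, IsOpen V ∧ x ∈ V ∧ ∀ᶠ j in (𝒰 : Filter ι),
      ∀ y ∈ V, Near W π q ε (g j y) := by
  have key : ∀ x : M, ∃ V : Set M, IsOpen V ∧ x ∈ V ∧ ∀ a : ι → M,
      (∀ᶠ j in (𝒰 : Filter ι), a j ∈ V) →
      (∀ η > 0, ∀ᶠ j in (𝒰 : Filter ι), Near W π q η (g j (a j))) →
      ∀ ε > 0, ∀ᶠ j in (𝒰 : Filter ι), ∀ y ∈ V, Near W π q ε (g j y) := by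
    intro x
    obtain ⟨σ, ρ, V, hp, -, hρ, hxV⟩ := exists_ch (E := E) x
    refine ⟨V ∩ ρ ⁻¹' ball 0 (1 / 16), hp.isOpen_pre isOpen_ball,
      ⟨hxV, by rw [mem_preimage, hρ]; exact mem_ball_self (by norm_num)⟩, fun a ha hl ε hε => ?_⟩
    obtain ⟨η, hη, h⟩ := hM.prop (F := E) hq hpk hε
    filter_upwards [hg, ha, hl η hη] with j h1 h2 h3 y hy
    have h4 := h (fun e => g j (σ e)) 0 1 (fun e he => MD.cmp (h1.1.hol _) (hp.dσ e he))
      (ρ (a j)) h2.2 (by rw [hp.right _ h2.1]; exact h3) (ρ y) hy.2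
    rwa [hp.right _ hy.1] at h4
  obtain ⟨k0, -, hk0⟩ := hM.cpt.ultrafilter_le_nhds (𝒰.map kk) (by
    rw [le_principal_iff]
    exact hg.mono fun j hj => hj.2)
  have hk : Tendsto kk 𝒰 (𝓝 k0) := hk0
  have hall : ∀ x, ∀ η > 0, ∀ᶠ j in (𝒰 : Filter ι), Near W π q η (g j x) := by
    refine conn_ind (x0 := k0) (fun x => ?_) ?_
    · obtain ⟨V, hV, hxV, h⟩ := key x
      exact ⟨V, hV, hxV, fun y hy hpy z hz η hη =>
        (h (fun _ => y) (Eventually.of_forall fun _ => hy) hpy η hη).mono fun j hj => hj z hz⟩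
    · obtain ⟨V, hV, hxV, h⟩ := key k0
      exact fun η hη => (h kk (hk (hV.mem_nhds hxV)) hlim η hη).mono fun j hj => hj k0 hxV
  intro x ε hε
  obtain ⟨V, hV, hxV, h⟩ := key x
  exact ⟨V, hV, hxV, h (fun _ => x) (Eventually.of_forall fun _ => hxV) (hall x) ε hε⟩

theorem MSet.exists_aut (hM : MSet τ π Ω W K) (hq : q ∈ ball (0 : E) 1) (hpk : PeakPt Ω q)
    {L : Set M} (hL : IsCompact L) {η : ℝ} (hη : 0 < η) :
    ∃ g g' : M → M, Aut E g g' ∧ ∀ x ∈ L, Near W π q η (g x) := by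
  obtain ⟨z, hz, hzq⟩ := mem_closure_iff_seq_limit.1 hpk.1
  choose g g' hg hgK using fun j => hM.co (τ (z j))
  have h1 := hM.limit hq hpk (hyperfilter ℕ) (g := g) (g' := g') (kk := fun j => g' j (τ (z j)))
    (Eventually.of_forall fun j => ⟨hg j, hgK j⟩) (fun η hη => by
      have h2 := (hzq.mono_left Nat.hyperfilter_le_atTop).eventually (ball_mem_nhds q hη)
      filter_upwards [h2] with j hj
      rw [(hg j).right]
      refine ⟨hM.ch.mσ (hz j), ?_⟩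
      rw [hM.ch.left _ (hz j)]
      exact mem_ball_iff_norm.1 hj)
  choose V hV hxV hj using fun x => h1 x η hη
  obtain ⟨t, -, ht⟩ := hL.elim_nhds_subcover V fun x _ => (hV x).mem_nhds (hxV x)
  obtain ⟨j, hj2⟩ := ((Finset.eventually_all t).2 fun x _ => hj x).exists
  refine ⟨g j, g' j, hg j, fun x hx => ?_⟩
  obtain ⟨y, hy, hxy⟩ := mem_iUnion₂.1 (ht hx)
  exact hj2 y hy x hxy

/-- Tautness. -/
theorem MSet.taut [T2Space M] [ProperSpace F] (hM : MSet τ π Ω W K) (hq : q ∈ ball (0 : E) 1)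
    (hpk : PeakPt Ω q) {ι : Type*} (𝒰 : Ultrafilter ι) {S : Set F} (hS : IsPreconnected S)
    {H : ι → F → M}
    (hH : ∀ s ∈ S, ∃ r > 0, ∀ᶠ j in (𝒰 : Filter ι), ∀ y ∈ ball s r, MD F E (H j) y)
    {s0 : F} (hs0 : s0 ∈ S) {x0 : M} (h0 : Tendsto (fun j => H j s0) 𝒰 (𝓝 x0)) :
    ∃ H0 : F → M, (∀ s ∈ S, MD F E H0 s) ∧ ∀ s ∈ S, ∀ u : ι → F, Tendsto u 𝒰 (𝓝 s) →
      Tendsto (fun j => H j (u j)) 𝒰 (𝓝 (H0 s)) := by
  have hps : ProperSpace E := FiniteDimensional.proper ℂ E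
  have hlc : LocallyCompactSpace M := ChartedSpace.locallyCompactSpace E M
  obtain ⟨K1, hK1, hKK1⟩ := exists_compact_superset hM.cpt
  obtain ⟨η, hη, hprop⟩ := hM.prop (F := F) hq hpk one_pos
  obtain ⟨b, b', hb, hbK⟩ := hM.exists_aut hq hpk hK1 hη
  have hC : IsCompact ((fun x => π (b x)) '' K1) := hK1.image_of_continuousOn fun x hx =>
    (MD.cmp (hM.ch.dπ _ (hbK x hx).1) (hb.hol x)).cont.continuousWithinAt
  obtain ⟨ρ, hρ, hρΩ⟩ := hC.exists_cthickening_subset_open hM.ch.oΩ (by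
    rintro _ ⟨x, hx, rfl⟩
    exact hM.ch.mπ (hbK x hx).1)
  have key : ∀ s ∈ S, ∃ δ > 0, ∀ s1 ∈ ball s δ, ∀ x1, Tendsto (fun j => H j s1) 𝒰 (𝓝 x1) →
      ∃ H1 : F → M, (∀ y ∈ ball s δ, MD F E H1 y) ∧ ∀ y ∈ ball s δ, ∀ u : ι → F,
        Tendsto u 𝒰 (𝓝 y) → Tendsto (fun j => H j (u j)) 𝒰 (𝓝 (H1 y)) := by
    intro s hs
    obtain ⟨r, hr, hr2⟩ := hH s hs
    set δ : ℝ := min (r / 64) (ρ * r / 128) with hδ
    have hδ1 : ball s δ ⊆ ball s (r / 16 / 4) :=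
      ball_subset_ball ((min_le_left _ _).trans (by linarith))
    have hδ2 : ball s δ ⊆ ball s (r / 16) :=
      ball_subset_ball ((min_le_left _ _).trans (by linarith))
    refine ⟨δ, by positivity, fun s1 hs1 x1 hx1 => ?_⟩
    obtain ⟨a, a', ha, haK⟩ := hM.co x1
    have h1 : ∀ᶠ j in (𝒰 : Filter ι), a' (H j s1) ∈ K1 :=
      ((ha.hol' x1).cont.tendsto.comp hx1).eventually
        (mem_of_superset (isOpen_interior.mem_nhds (hKK1 haK)) interior_subset)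
    set Fj : ι → F → E := fun j y => π (b (a' (H j y))) with hFj
    have h2 : ∀ᶠ j in (𝒰 : Filter ι), (∀ y ∈ ball s (r / 16), b (a' (H j y)) ∈ W) ∧
        DifferentiableOn ℂ (Fj j) (ball s (r / 16)) ∧ (∀ y ∈ ball s (r / 16), ‖Fj j y‖ ≤ 1) ∧
        ∀ y ∈ ball s δ, Fj j y ∈ cthickening ρ ((fun x => π (b x)) '' K1) := by
      filter_upwards [hr2, h1] with j h3 h4
      have h5 : ∀ y ∈ ball s r, MD F E (fun y => b (a' (H j y))) y := fun y hy =>
        MD.cmp (g := b) (hb.hol _) (MD.cmp (g := a') (ha.hol' _) (h3 y hy))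
      have h6 : ∀ y ∈ ball s (r / 16), b (a' (H j y)) ∈ W := fun y hy =>
        (hprop _ s r h5 s1 (hδ2 hs1) (hbK _ h4) y hy).1
      have h7 : DifferentiableOn ℂ (Fj j) (ball s (r / 16)) := fun y hy =>
        (MD.cmp (g := π) (f := fun y => b (a' (H j y))) (hM.ch.dπ _ (h6 y hy))
          (h5 y (ball_subset_ball (by linarith) hy))).diff.differentiableWithinAt
      have h8 : ∀ y ∈ ball s (r / 16), ‖Fj j y‖ ≤ 1 := fun y hy =>
        (mem_ball_zero_iff.1 (hM.sub (hM.ch.mπ (h6 y hy)))).le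
      refine ⟨h6, h7, h8, fun y hy => ?_⟩
      have h9 := lip_of_bdd (by positivity) h7 h8 (hδ1 hs1) (hδ1 hy)
      refine mem_cthickening_of_dist_le _ (Fj j s1) _ _ ⟨_, h4, rfl⟩ (h9.trans ?_)
      have h10 : dist y s1 ≤ 2 * (ρ * r / 128) := by
        have h11 := dist_triangle_right y s1 s
        have h12 : δ ≤ ρ * r / 128 := min_le_right _ _
        rw [mem_ball] at hs1 hy
        linarith
      calc 4 * 1 / (r / 16) * dist y s1 ≤ 4 * 1 / (r / 16) * (2 * (ρ * r / 128)) := by gcongr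
        _ = ρ := by field_simp; ring
    obtain ⟨Φ, hΦd, hΦc⟩ := montel 𝒰 (f := Fj) (U := ball s δ) isOpen_ball (fun y hy => by
      obtain ⟨t, ht, htb⟩ := Metric.isOpen_iff.1 isOpen_ball y (hδ2 hy)
      exact ⟨t, ht, 1, h2.mono fun j hj => ⟨hj.2.1.mono htb, fun z hz => hj.2.2.1 z (htb hz)⟩⟩)
    have hΦΩ : ∀ y ∈ ball s δ, Φ y ∈ Ω := fun y hy => hρΩ
      (isClosed_cthickening.mem_of_tendsto (hΦc y hy (fun _ => y) tendsto_const_nhds)
        (h2.mono fun j hj => hj.2.2.2 y hy))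
    have hB : ∀ e ∈ Ω, MD E E (fun e => a (b' (τ e))) e := fun e he =>
      MD.cmp (g := a) (ha.hol _) (MD.cmp (g := b') (hb.hol' _) (hM.ch.dσ e he))
    refine ⟨fun y => a (b' (τ (Φ y))), fun y hy => MD.cmp (g := fun e => a (b' (τ e))) (f := Φ)
      (hB _ (hΦΩ y hy)) (md_of_diff (hΦd.differentiableAt (isOpen_ball.mem_nhds hy))),
      fun y hy u hu => ?_⟩
    refine ((hB _ (hΦΩ y hy)).cont.tendsto.comp (hΦc y hy u hu)).congr' ?_
    filter_upwards [h2, hu (isOpen_ball.mem_nhds hy)] with j h3 h4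
    simp only [Function.comp_apply, hFj]
    rw [hM.ch.right _ (h3.1 _ (hδ2 h4)), hb.left, ha.right]
  have hall : ∀ s ∈ S, ∃ x, Tendsto (fun j => H j s) 𝒰 (𝓝 x) := by
    have : PreconnectedSpace S := Subtype.preconnectedSpace hS
    have h1 := conn_ind (M := S) (p := fun s => ∃ x, Tendsto (fun j => H j s) 𝒰 (𝓝 x))
      (x0 := ⟨s0, hs0⟩) (fun s => by
        obtain ⟨δ, hδ, h⟩ := key s s.2
        refine ⟨Subtype.val ⁻¹' ball (s : F) δ, isOpen_ball.preimage continuous_subtype_val,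
          mem_ball_self hδ, ?_⟩
        rintro y hy ⟨x, hx⟩ z hz
        obtain ⟨H1, -, h2⟩ := h y hy x hx
        exact ⟨_, h2 z hz (fun _ => z) tendsto_const_nhds⟩) ⟨x0, h0⟩
    exact fun s hs => h1 ⟨s, hs⟩
  have hne : Nonempty M := ⟨x0⟩
  set H0 : F → M := fun s => limUnder (𝒰 : Filter ι) fun j => H j s with hH0
  have key2 : ∀ s ∈ S, ∃ δ > 0, ∃ H1 : F → M, (∀ y ∈ ball s δ, H0 y = H1 y) ∧
      (∀ y ∈ ball s δ, MD F E H1 y) ∧ ∀ y ∈ ball s δ, ∀ u : ι → F,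
        Tendsto u 𝒰 (𝓝 y) → Tendsto (fun j => H j (u j)) 𝒰 (𝓝 (H1 y)) := by
    intro s hs
    obtain ⟨δ, hδ, h⟩ := key s hs
    obtain ⟨x, hx⟩ := hall s hs
    obtain ⟨H1, h1, h2⟩ := h s (mem_ball_self hδ) x hx
    exact ⟨δ, hδ, H1, fun y hy => (h2 y hy (fun _ => y) tendsto_const_nhds).limUnder_eq, h1, h2⟩
  refine ⟨H0, fun s hs => ?_, fun s hs u hu => ?_⟩
  · obtain ⟨δ, hδ, H1, h1, h2, -⟩ := key2 s hs
    exact (h2 s (mem_ball_self hδ)).congr (eventually_of_mem (ball_mem_nhds s hδ) h1)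
  · obtain ⟨δ, hδ, H1, h1, -, h3⟩ := key2 s hs
    rw [h1 s (mem_ball_self hδ)]
    exact h3 s (mem_ball_self hδ) u hu

/-- The continuity principle in the end chart. -/
theorem MSet.kont [T2Space M] (hM : MSet τ π Ω W K) (hq : q ∈ ball (0 : E) 1)
    (hpk : PeakPt Ω q) {a : E} {δ : ℝ} (hδ : ‖a‖ + δ < 1) : H.Kont Ω a δ := by
  intro H H0 hH hlim hH0 h0 ζ hζ
  obtain ⟨s0, hs0, hs0U⟩ := h0
  have hle : ((hyperfilter ℕ : Ultrafilter ℕ) : Filter ℕ) ≤ atTop := Nat.hyperfilter_le_atTop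
  obtain ⟨H1, -, h2⟩ := hM.taut hq hpk (hyperfilter ℕ) (S := ball (0 : ℂ) 1)
    (convex_ball _ _).isPreconnected (H := fun j z => τ (H j z)) (fun s hs => by
      obtain ⟨r, hr, hrs⟩ := Metric.isOpen_iff.1 isOpen_ball s hs
      exact ⟨r, hr, Eventually.of_forall fun j y hy => MD.cmp (g := τ) (f := H j)
        (hM.ch.dσ _ ((hH j).2 (hrs hy)).1)
        (md_of_diff ((hH j).1.differentiableAt (isOpen_ball.mem_nhds (hrs hy))))⟩) hs0
    ((hM.ch.dσ _ hs0U).cont.tendsto.comp ((hlim s0 hs0).mono_left hle))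
  have h3 := h2 ζ hζ (fun _ => ζ) tendsto_const_nhds
  have h4 : H1 ζ ∈ {x | x ∈ W ∧ ‖π x‖ ≤ ‖a‖ + δ} := by
    refine (hM.closed _ hδ).mem_of_tendsto h3 (Eventually.of_forall fun j => ?_)
    have h5 := (hH j).2 hζ
    refine ⟨hM.ch.mσ h5.1, ?_⟩
    rw [hM.ch.left _ h5.1]
    have h6 := norm_le_norm_add_norm_sub' (H j ζ) a
    have h7 := mem_ball_iff_norm.1 h5.2
    linarith
  have h5 := (hM.ch.dπ _ h4.1).cont.tendsto.comp h3
  have h6 : Tendsto (fun j => H j ζ) (hyperfilter ℕ : Ultrafilter ℕ) (𝓝 (π (H1 ζ))) := by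
    refine h5.congr fun j => ?_
    exact hM.ch.left _ ((hH j).2 hζ).1
  rw [tendsto_nhds_unique ((hlim ζ hζ).mono_left hle) h6]
  exact hM.ch.mπ h4.1

end peak

end Vale.Agent.N274
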