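import Vale.Agent.N274.Man

/-! Scaling at a peak point of an end of a complex manifold. -/

open Filter Metric Set Topology
open scoped Manifold

namespace Vale.Agent.N274

open Vale.Agent.P274 Vale.Agent.P274.Z Complex

variable {E : Type} [NormedAddCommGroup E] [InnerProductSpace ℂ E] [FiniteDimensional ℂ E]
  {M : Type*} [TopologicalSpace M] [ChartedSpace E M] [IsManifold 𝓘(ℂ, E) 1 M]
  [PreconnectedSpace M] {τ : E → M} {π : M → E} {Ω : Set E} {W K : Set M} {q : E}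
  {ι : Type*} {k : ℕ} {D : E →L[ℝ] (Fin k → ℝ)} {B : E →L[ℝ] E →L[ℝ] (Fin k → ℝ)}
  {σ : (Fin k → ℂ) →L[ℂ] E}

/-- Normality of the rescaled automorphisms. -/
theorem MSet.normality (hM : MSet τ π Ω W K) (hq : q ∈ ball (0 : E) 1) (hpk : PeakPt Ω q)
    (hσ : ∀ w, Lam D (σ w) = w)
    {r0 c : ℝ} (hr0 : 0 < r0) (hc : 0 < c) {P : E → ℂ} (hP : DifferentiableOn ℂ P (ball q r0))
    (hPq : P q = 0)
    (hPre : ∀ z ∈ Ω, z ∈ ball q r0 → c * (‖z - q‖ ^ 2 + ‖D (z - q)‖) ≤ (P z).re)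
    (hP' : ∀ u, Lam D u = 0 → fderiv ℂ P q u = 0)
    (𝒰 : Ultrafilter ι) {s : ι → ℝ} (hs : Tendsto s 𝒰 (𝓝[>] 0)) {s0 : E} {g g' : ι → M → M}
    {kk : ι → M} (hg : ∀ᶠ j in (𝒰 : Filter ι), Aut E (g j) (g' j) ∧ kk j ∈ K ∧
      g j (kk j) = τ (q + Th D B σ (s j) s0) ∧ q + Th D B σ (s j) s0 ∈ Ω) :
    (∀ x, ∃ V : Set M, IsOpen V ∧ x ∈ V ∧ ∀ᶠ j in (𝒰 : Filter ι), ∀ y ∈ V, g j y ∈ W) ∧
    ∀ x, LocBddM E (𝒰 : Filter ι) (fun j x => Ps D B σ (s j) (π (g j x) - q)) x := by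
  have hps : ProperSpace E := FiniteDimensional.proper ℂ E
  have hs0 : Tendsto s 𝒰 (𝓝 0) := hs.mono_right nhdsWithin_le_nhds
  have hspos : ∀ᶠ j in (𝒰 : Filter ι), 0 < s j := hs.eventually self_mem_nhdsWithin
  have hTh0 : Tendsto (fun j => q + Th D B σ (s j) s0) 𝒰 (𝓝 q) := by
    have h1 : Tendsto (fun j => q + ((s j ^ 2) • σ (Lam D s0 - Qf B (prj D σ s0)) +
        s j • prj D σ s0)) 𝒰 (𝓝 (q + (((0 : ℝ) ^ 2) • σ (Lam D s0 - Qf B (prj D σ s0)) +
        (0 : ℝ) • prj D σ s0))) :=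
      tendsto_const_nhds.add (((hs0.pow 2).smul_const _).add (hs0.smul_const _))
    have h2 : q + (((0 : ℝ) ^ 2) • σ (Lam D s0 - Qf B (prj D σ s0)) +
        (0 : ℝ) • prj D σ s0) = q := by
      simp
    rw [h2] at h1
    exact h1
  set γ : ι → M → E := fun j x => π (g j x) with hγ
  have hbase : ∀ᶠ j in (𝒰 : Filter ι), γ j (kk j) = q + Th D B σ (s j) s0 := by
    filter_upwards [hg] with j h1
    simp only [hγ]
    rw [h1.2.2.1, hM.ch.left _ h1.2.2.2]
  have hunif := hM.limit hq hpk 𝒰 (hg.mono fun j hj => ⟨hj.1, hj.2.1⟩) (fun η hη => by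
    filter_upwards [hg, hbase, hTh0.eventually (ball_mem_nhds q hη)] with j h1 h2 h3
    refine ⟨h1.2.2.1 ▸ hM.ch.mσ h1.2.2.2, ?_⟩
    have h4 : π (g j (kk j)) = q + Th D B σ (s j) s0 := h2
    rw [h4]
    exact mem_ball_iff_norm.1 h3)
  refine ⟨fun x => ?_, ?_⟩
  · obtain ⟨V, hV, hxV, h⟩ := hunif x 1 one_pos
    exact ⟨V, hV, hxV, h.mono fun j hj y hy => (hj y hy).1⟩
  obtain ⟨k0, -, hk0⟩ := hM.cpt.ultrafilter_le_nhds (𝒰.map kk) (by
    rw [le_principal_iff]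
    exact hg.mono fun j hj => hj.2.1)
  have hk : Tendsto kk 𝒰 (𝓝 k0) := hk0
  have hloc : ∀ x, ∃ V : Set M, IsOpen V ∧ x ∈ V ∧ ∀ᶠ j in (𝒰 : Filter ι),
      ∀ z ∈ V, MD E E (γ j) z ∧ γ j z ∈ Ω ∧ γ j z ∈ ball q r0 := by
    intro x
    obtain ⟨V, hV, hxV, h2⟩ := hunif x r0 hr0
    refine ⟨V, hV, hxV, ?_⟩
    filter_upwards [h2, hg] with j h3 h4 z hz
    exact ⟨MD.cmp (g := π) (f := g j) (hM.ch.dπ _ (h3 z hz).1) (h4.1.hol z),
      hM.ch.mπ (h3 z hz).1, mem_ball_iff_norm.2 (h3 z hz).2⟩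
  -- the peak function, rescaled
  set h : ι → M → ℂ := fun j x => ((((s j) ^ 2)⁻¹ : ℝ) : ℂ) * P (γ j x) with hh
  have hhre : ∀ j x, (h j x).re = ((s j) ^ 2)⁻¹ * (P (γ j x)).re := fun j x => re_ofReal_mul _ _
  obtain ⟨C1, hC1⟩ := holo_scaled_bound (B := B) hr0 hP hPq hP' hσ s0
  have hhLB : ∀ x, LocBddM E (𝒰 : Filter ι) h x := by
    refine harnackM 𝒰 (fun y => ?_) hk (C := C1) ?_
    · obtain ⟨V, hV, hyV, h1⟩ := hloc y
      refine ⟨V, hV, hyV, ?_⟩
      filter_upwards [h1] with j h2 z hz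
      have h4 := h2 z hz
      refine ⟨MD.cmp (g := fun e : E => ((((s j) ^ 2)⁻¹ : ℝ) : ℂ) * P e) (f := γ j)
        (md_of_diff ((hP.differentiableAt (isOpen_ball.mem_nhds h4.2.2)).const_mul _)) h4.1, ?_⟩
      rw [hhre]
      have h5 := hPre _ h4.2.1 h4.2.2
      have h6 : 0 ≤ c * (‖γ j z - q‖ ^ 2 + ‖D (γ j z - q)‖) := by (clear * - hc; positivity)
      have h7 : 0 ≤ ((s j) ^ 2)⁻¹ := by positivity
      exact mul_nonneg h7 (h6.trans h5)
    · filter_upwards [hbase, hspos, hs.eventually hC1] with j h1 h2 h3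
      simp only [hh]
      rw [norm_mul, norm_real,
        Real.norm_of_nonneg (by (clear * - h2; positivity) : (0 : ℝ) ≤ ((s j) ^ 2)⁻¹), h1,
        inv_mul_le_iff₀ (by (clear * - h2; positivity))]
      linarith only [h3]
  -- the coordinates of `Lam D (γ - q)`
  set L : Fin k → ι → M → ℂ := fun i j x =>
    ((((s j) ^ 2)⁻¹ : ℝ) : ℂ) * Lam D (γ j x - q) i + ((c⁻¹ : ℝ) : ℂ) * h j x with hL
  have hLLB : ∀ i x, LocBddM E (𝒰 : Filter ι) (L i) x := by
    intro i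
    refine harnackM 𝒰 (fun y => ?_) hk
      (C := ‖Lam D s0 - Qf B (prj D σ s0)‖ + c⁻¹ * C1) ?_
    · obtain ⟨V, hV, hyV, h1⟩ := hloc y
      refine ⟨V, hV, hyV, ?_⟩
      filter_upwards [h1] with j h2 z hz
      have h4 := h2 z hz
      constructor
      · have h3 : DifferentiableOn ℂ (fun e : E => ((((s j) ^ 2)⁻¹ : ℝ) : ℂ) * Lam D (e - q) i +
            ((c⁻¹ : ℝ) : ℂ) * (((((s j) ^ 2)⁻¹ : ℝ) : ℂ) * P e)) (ball q r0) := by
          have h4 : DifferentiableOn ℂ (fun e : E => Lam D (e - q)) (ball q r0) :=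
            (Lam D).differentiable.comp_differentiableOn (differentiableOn_id.sub_const q)
          exact (((differentiableOn_pi.1 h4) i).const_mul _).add ((hP.const_mul _).const_mul _)
        exact MD.cmp (f := γ j)
          (md_of_diff (h3.differentiableAt (isOpen_ball.mem_nhds h4.2.2))) h4.1
      simp only [hL, add_re, re_ofReal_mul, hhre, Lam_re]
      have h5 := hPre _ h4.2.1 h4.2.2
      have h6 : 0 ≤ ((s j) ^ 2)⁻¹ := by positivity
      have h7 : -‖D (γ j z - q)‖ ≤ D (γ j z - q) i := by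
        have := norm_le_pi_norm (D (γ j z - q)) i
        rw [Real.norm_eq_abs] at this
        exact (abs_le.1 this).1.trans' (by linarith)
      have h8 : ‖D (γ j z - q)‖ ≤ c⁻¹ * (P (γ j z)).re := by
        rw [le_inv_mul_iff₀ hc]
        linarith only [mul_nonneg (le_of_lt (sub_pos.2 hc)) (sq_nonneg ‖γ j z - q‖), h5]
      have h9 : 0 ≤ D (γ j z - q) i + c⁻¹ * (P (γ j z)).re := by linarith only [h8, h7]
      have h10 := mul_nonneg h6 h9
      calc (0 : ℝ) ≤ ((s j) ^ 2)⁻¹ * (D (γ j z - q) i + c⁻¹ * (P (γ j z)).re) := h10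
        _ = _ := by ring
    · filter_upwards [hbase, hspos, hs.eventually hC1] with j h1 h2 h3
      simp only [hL, hh]
      rw [h1, add_sub_cancel_left, Lam_Th hσ]
      refine (norm_add_le _ _).trans ?_
      rw [norm_mul, norm_mul, norm_mul, norm_real, norm_real,
        Real.norm_of_nonneg (by (clear * - h2; positivity) : (0 : ℝ) ≤ ((s j) ^ 2)⁻¹),
        Real.norm_of_nonneg (by (clear * - hc; positivity) : (0 : ℝ) ≤ c⁻¹)]
      have h4 : ((s j) ^ 2)⁻¹ * ‖P (q + Th D B σ (s j) s0)‖ ≤ C1 := by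
        rw [inv_mul_le_iff₀ (by (clear * - h2; positivity))]
        linarith only [h3]
      have h5 : ‖(s j ^ 2 • (Lam D s0 - Qf B (prj D σ s0))) i‖ =
          s j ^ 2 * ‖(Lam D s0 - Qf B (prj D σ s0)) i‖ := by
        rw [Pi.smul_apply, norm_smul, Real.norm_of_nonneg (by (clear * - h2; positivity))]
      rw [h5, ← mul_assoc, inv_mul_cancel₀ (by (clear * - h2; positivity)), one_mul]
      have h6 := norm_le_pi_norm (Lam D s0 - Qf B (prj D σ s0)) i
      have h7 : 0 ≤ c⁻¹ := by (clear * - hc; positivity)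
      have h8 := mul_le_mul_of_nonneg_left h4 h7
      linarith only [h6, h8]
  -- conclusion
  intro y
  obtain ⟨V, hV, hyV, h1⟩ := hloc y
  obtain ⟨V1, hV1, hyV1, C2, hC2⟩ := hhLB y
  choose V2 hV2 hyV2 C3 hC3 using fun i => hLLB i y
  obtain ⟨C5, hC5⟩ : ∃ C5, ∀ i, C3 i ≤ C5 := by
    obtain ⟨C5, hC5⟩ := (Set.finite_range C3).bddAbove
    exact ⟨C5, fun i => hC5 (mem_range_self i)⟩
  obtain ⟨C, hC⟩ := exists_Ps_bound (D := D) (B := B) (σ := σ) hc C2 C5
  refine ⟨V ∩ V1 ∩ ⋂ i, V2 i, (hV.inter hV1).inter (isOpen_iInter_of_finite hV2),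
    ⟨⟨hyV, hyV1⟩, mem_iInter.2 hyV2⟩, C, ?_⟩
  have hC3' : ∀ᶠ j in (𝒰 : Filter ι), ∀ i, ∀ z ∈ V2 i, MD E ℂ (L i j) z ∧ ‖L i j z‖ ≤ C3 i :=
    eventually_all.2 hC3
  filter_upwards [h1, hC2, hC3', hspos] with j h2 h3 h4 h5 z hz
  have h6 := h2 z hz.1.1
  constructor
  · have h7 : Differentiable ℂ (fun e : E => Ps D B σ (s j) (e - q)) :=
      (differentiable_Ps (D := D) (B := B) (σ := σ) (s j)).comp (differentiable_id.sub_const q)
    exact MD.cmp (f := γ j) (md_of_diff (h7 _)) h6.1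
  · refine hC (s j) (γ j z - q) (P (γ j z)) h5 (hPre _ h6.2.1 h6.2.2) (h3 z hz.1.2).2 fun i => ?_
    exact (h4 i z (mem_iInter.1 hz.2 i)).2.trans (hC5 i)

/-- First scaling: `M` is biholomorphic to a connected component of the kernel. -/
theorem MSet.first_scaling [T2Space M] (hM : MSet τ π Ω W K) (hq : q ∈ ball (0 : E) 1)
    (hpk : PeakPt Ω q) (hσ : ∀ w, Lam D (σ w) = w)
    {r0 c : ℝ} (hr0 : 0 < r0) (hc : 0 < c) {P : E → ℂ} (hP : DifferentiableOn ℂ P (ball q r0))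
    (hPq : P q = 0)
    (hPre : ∀ z ∈ Ω, z ∈ ball q r0 → c * (‖z - q‖ ^ 2 + ‖D (z - q)‖) ≤ (P z).re)
    (hP' : ∀ u, Lam D u = 0 → fderiv ℂ P q u = 0)
    (𝒰 : Ultrafilter ι) {s : ι → ℝ} (hs : Tendsto s 𝒰 (𝓝[>] 0)) {s0 : E}
    (hs0 : s0 ∈ InS 𝒰 (fun j => (fun y => q + Th D B σ (s j) y) ⁻¹' Ω)) :
    ∃ (h : E → M) (f : M → E), Ch h f (connectedComponentIn
      (InS 𝒰 (fun j => (fun y => q + Th D B σ (s j) y) ⁻¹' Ω)) s0) univ := by
  have hps : ProperSpace E := FiniteDimensional.proper ℂ E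
  have hspos : ∀ᶠ j in (𝒰 : Filter ι), 0 < s j := hs.eventually self_mem_nhdsWithin
  set V : ι → Set E := fun j => (fun y => q + Th D B σ (s j) y) ⁻¹' Ω with hV
  set S := connectedComponentIn (InS 𝒰 V) s0 with hS
  have hSo : IsOpen S := (isOpen_InS 𝒰 V).connectedComponentIn
  have hSc : IsPreconnected S := isPreconnected_connectedComponentIn
  have hs0S : s0 ∈ S := mem_connectedComponentIn hs0
  have hSsub : S ⊆ InS 𝒰 V := connectedComponentIn_subset _ _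
  have hThd : ∀ j, Differentiable ℂ (fun y : E => q + Th D B σ (s j) y) := fun j =>
    (differentiable_Th (s j)).const_add q
  -- choose the automorphisms
  choose g g' hg hgK using fun j => hM.co (τ (q + Th D B σ (s j) s0))
  set kk : ι → M := fun j => g' j (τ (q + Th D B σ (s j) s0)) with hk
  obtain ⟨r1, hr1, hr1V⟩ := hs0
  have hgood : ∀ᶠ j in (𝒰 : Filter ι), Aut E (g j) (g' j) ∧ kk j ∈ K ∧
      g j (kk j) = τ (q + Th D B σ (s j) s0) ∧ q + Th D B σ (s j) s0 ∈ Ω := by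
    filter_upwards [hr1V] with j h2
    exact ⟨hg j, hgK j, (hg j).right _, h2 (mem_ball_self hr1)⟩
  obtain ⟨hloc, hLB⟩ := hM.normality hq hpk hσ hr0 hc hP hPq hPre hP' 𝒰 hs hgood
  set fj : ι → M → E := fun j x => Ps D B σ (s j) (π (g j x) - q) with hfj
  obtain ⟨f, hfd, hfc⟩ := montelM 𝒰 hLB
  obtain ⟨k0, -, hk0⟩ := hM.cpt.ultrafilter_le_nhds (𝒰.map kk) (by
    rw [le_principal_iff]
    exact hgood.mono fun j hj => hj.2.1)
  have hk0' : Tendsto kk 𝒰 (𝓝 k0) := hk0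
  set G : ι → E → M := fun j y => g' j (τ (q + Th D B σ (s j) y)) with hG
  have hfG : ∀ᶠ j in (𝒰 : Filter ι), ∀ y ∈ V j, fj j (G j y) = y := by
    filter_upwards [hspos] with j h0 y hy
    simp only [hfj, hG]
    rw [(hg j).right, hM.ch.left _ hy, add_sub_cancel_left, Ps_Th hσ h0.ne']
  have hfk : f k0 = s0 := by
    have h3 : Tendsto (fun j => fj j (kk j)) 𝒰 (𝓝 s0) := by
      refine tendsto_const_nhds.congr' ?_
      filter_upwards [hfG, hr1V] with j h4 h5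
      exact (h4 s0 (h5 (mem_ball_self hr1))).symm
    exact tendsto_nhds_unique (hfc k0 kk hk0') h3
  have hGf : ∀ᶠ j in (𝒰 : Filter ι), ∀ x, g j x ∈ W → fj j x ∈ V j ∧ G j (fj j x) = x := by
    filter_upwards [hspos] with j h0 x hxW
    have h2 : q + Th D B σ (s j) (fj j x) = π (g j x) := by
      simp only [hfj]
      rw [Th_Ps hσ h0.ne', add_sub_cancel]
    refine ⟨?_, ?_⟩
    · change q + Th D B σ (s j) (fj j x) ∈ Ω
      rw [h2]
      exact hM.ch.mπ hxW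
    · simp only [hG]
      rw [h2, hM.ch.right _ hxW, (hg j).left]
  have hGd : ∀ j, ∀ y ∈ V j, MD E E (G j) y := fun j y hy =>
    MD.cmp (g := g' j) (f := fun y => τ (q + Th D B σ (s j) y)) ((hg j).hol' _)
      (MD.cmp (g := τ) (f := fun y => q + Th D B σ (s j) y) (hM.ch.dσ _ hy)
        (md_of_diff (hThd j y)))
  obtain ⟨h, hhd, hhc⟩ := hM.taut hq hpk 𝒰 hSc (H := G) (fun y hy => by
    obtain ⟨r, hr, hrV⟩ := hSsub hy
    exact ⟨r, hr, hrV.mono fun j hj z hz => hGd j z (hj hz)⟩) hs0S hk0'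
  have hfh : ∀ y ∈ S, f (h y) = y := by
    intro y hy
    obtain ⟨r, hr, hrV⟩ := hSsub hy
    have h2 := hfc _ (fun j => G j y) (hhc y hy (fun _ => y) tendsto_const_nhds)
    have h3 : Tendsto (fun j => fj j (G j y)) 𝒰 (𝓝 y) := by
      refine tendsto_const_nhds.congr' ?_
      filter_upwards [hfG, hrV] with j hj hj2
      exact (hj y (hj2 (mem_ball_self hr))).symm
    exact tendsto_nhds_unique h2 h3
  have hfpt : ∀ x, Tendsto (fun j => fj j x) 𝒰 (𝓝 (f x)) := fun x =>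
    hfc x (fun _ => x) tendsto_const_nhds
  have hhf : ∀ x, f x ∈ S → h (f x) = x := by
    intro x hfx
    have h2 := hhc _ hfx (fun j => fj j x) (hfpt x)
    obtain ⟨V0, -, hx0, h4⟩ := hloc x
    have h3 : Tendsto (fun j => G j (fj j x)) 𝒰 (𝓝 x) := by
      refine tendsto_const_nhds.congr' ?_
      filter_upwards [hGf, h4] with j hj hj2
      exact ((hj x (hj2 x hx0)).2).symm
    exact tendsto_nhds_unique h2 h3
  -- `f` takes values in `S`
  have hfS : ∀ x, f x ∈ S := by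
    refine conn_ind (x0 := k0) (fun x => ?_) (hfk ▸ hs0S)
    obtain ⟨σx, ρ, Wx, hpx, hσ0, hρx, hxW⟩ := exists_ch (E := E) x
    obtain ⟨V0, hV0, hx0, hδW⟩ := hloc x
    obtain ⟨r, hr, hrb⟩ := Metric.isOpen_iff.1 (hpx.isOpen_pre' hV0) 0
      ⟨mem_ball_self one_pos, by rw [mem_preimage, hσ0]; exact hx0⟩
    have hr1 : ball (0 : E) r ⊆ ball 0 1 := fun e he => (hrb he).1
    refine ⟨Wx ∩ ρ ⁻¹' ball 0 r, hpx.isOpen_pre isOpen_ball,
      ⟨hxW, by rw [mem_preimage, hρx]; exact mem_ball_self hr⟩, fun y hy hyS z hz => ?_⟩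
    obtain ⟨hyW, hyr⟩ := hy
    set Fj : ι → E → E := fun j e => fj j (σx e) with hFj
    have hFLB : LocBdd (𝒰 : Filter ι) Fj (ball (0 : E) r) := fun e he =>
      locBdd_ch hLB hpx e (hr1 he)
    obtain ⟨F, hFd, hFu, hFc⟩ := montel_full 𝒰 isOpen_ball hFLB
    have hFf : ∀ e ∈ ball (0 : E) r, F e = f (σx e) := fun e he =>
      tendsto_nhds_unique (hFc e he (fun _ => e) tendsto_const_nhds) (hfpt _)
    have hdet0 : (fderiv ℂ F (ρ y)).det ≠ 0 := by
      have hhy : h (f y) = y := hhf y hyS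
      have hhc0 : ContinuousAt h (f y) := (hhd _ hyS).cont
      have h2 : DifferentiableAt ℂ (fun z => ρ (h z)) (f y) :=
        (MD.cmp (g := ρ) (f := h) (by rw [hhy]; exact hpx.dπ y hyW) (hhd _ hyS)).diff
      have h3 : ρ (h (f y)) = ρ y := by rw [hhy]
      have h4 : DifferentiableAt ℂ F (ρ (h (f y))) := by
        rw [h3]
        exact hFd.differentiableAt (isOpen_ball.mem_nhds hyr)
      have h5 : ∀ᶠ z in 𝓝 (f y), F (ρ (h z)) = z := by
        have h6 : ∀ᶠ z in 𝓝 (f y), ρ (h z) ∈ ball (0 : E) r := by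
          refine h2.continuousAt.eventually_mem ?_
          rw [h3]
          exact isOpen_ball.mem_nhds hyr
        have h7 : ∀ᶠ z in 𝓝 (f y), h z ∈ Wx := hhc0.eventually_mem (by
          rw [hhy]; exact hpx.oW.mem_nhds hyW)
        filter_upwards [h6, h7, hSo.mem_nhds hyS] with z h8 h9 h10
        rw [hFf _ h8, hpx.right _ h9, hfh z h10]
      have h6 := (det_ne_zero_of_inv h2 h4 h5).2
      rwa [h3] at h6
    have hFdet : ∀ᶠ j in (𝒰 : Filter ι), (DifferentiableOn ℂ (Fj j) (ball (0 : E) r) ∧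
        ∀ e ∈ ball (0 : E) r, (fderiv ℂ (Fj j) e).det ≠ 0) ∧
        ∀ e ∈ ball (0 : E) r, Fj j e ∈ V j := by
      filter_upwards [hδW, hGf] with j h2 h3
      have h6 : ∀ e ∈ ball (0 : E) r, g j (σx e) ∈ W := fun e he => h2 _ (hrb he).2
      have h7 : ∀ e ∈ ball (0 : E) r, Fj j e ∈ V j ∧ G j (Fj j e) = σx e := fun e he =>
        h3 _ (h6 e he)
      have h8 : ∀ e ∈ ball (0 : E) r, DifferentiableAt ℂ (Fj j) e := by
        intro e he
        have h10 : DifferentiableAt ℂ (fun e => π (g j (σx e))) e :=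
          (MD.cmp (g := π) (f := fun e => g j (σx e)) (hM.ch.dπ _ (h6 e he))
            (MD.cmp (g := g j) (f := σx) ((hg j).hol _) (hpx.dσ e (hr1 he)))).diff
        exact (differentiable_Ps (D := D) (B := B) (σ := σ) (s j) _).comp e (h10.sub_const q)
      refine ⟨⟨fun e he => (h8 e he).differentiableWithinAt, fun e he => ?_⟩,
        fun e he => (h7 e he).1⟩
      have h10 : DifferentiableAt ℂ (fun z => ρ (G j z)) (Fj j e) :=
        (MD.cmp (g := ρ) (f := G j) (by rw [(h7 e he).2]; exact hpx.dπ _ (hpx.mσ (hr1 he)))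
          (hGd j _ (h7 e he).1)).diff
      refine (det_ne_zero_of_inv (h8 e he) h10 ?_).1
      filter_upwards [isOpen_ball.mem_nhds he] with z hz
      rw [(h7 z hz).2, hpx.left z (hr1 hz)]
    have hdet := hurwitz_det 𝒰 isOpen_ball (convex_ball (0 : E) r).isPreconnected hFLB hFd hFu
      (hFdet.mono fun j hj => hj.1) hyr hdet0
    have hFI : F '' ball (0 : E) r ⊆ InS 𝒰 V := by
      rintro _ ⟨e, he, rfl⟩
      obtain ⟨r', hr', h2⟩ := eventually_ball_subset_image 𝒰 isOpen_ball hFLB hFd hFu he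
        (hdet e he)
      refine ⟨r', hr', ?_⟩
      filter_upwards [h2, hFdet] with j h3 h4
      refine h3.trans ?_
      rintro _ ⟨e, he, rfl⟩
      exact h4.2 e he
    have hFy : F (ρ y) = f y := by rw [hFf _ hyr, hpx.right _ hyW]
    have hFz : F (ρ z) = f z := by rw [hFf _ hz.2, hpx.right _ hz.1]
    have h3 : IsPreconnected (F '' ball (0 : E) r) :=
      (convex_ball (0 : E) r).isPreconnected.image _ hFd.continuousOn
    have h4 : S = connectedComponentIn (InS 𝒰 V) (f y) := connectedComponentIn_eq hyS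
    rw [h4]
    exact h3.subset_connectedComponentIn ⟨_, hyr, hFy⟩ hFI ⟨_, hz.2, hFz⟩
  exact ⟨h, f, hSo, isOpen_univ, hhd, fun x _ => hfd x, fun _ _ => mem_univ _, fun x _ => hfS x,
    hfh, fun x _ => hhf x (hfS x)⟩

omit [FiniteDimensional ℂ E] [IsManifold 𝓘(ℂ, E) 1 M] [PreconnectedSpace M] in
theorem Ch.trans {h : E → M} {f : M → E} {S U : Set E} (hc : Ch h f S univ) (hU : IsOpen U)
    {a b : E → E} (hab : IsBiholo S U a b) :
    Ch (fun y => h (b y)) (fun x => a (f x)) U univ :=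
  ⟨hU, isOpen_univ, fun e he => MD.cmp (g := h) (f := b) (hc.dσ _ (hab.mapsTo_inv he))
      (md_of_diff (hab.diffOn_inv.differentiableAt (hU.mem_nhds he))),
    fun x hx => MD.cmp (g := a) (f := f)
      (md_of_diff (hab.diffOn.differentiableAt (hc.oΩ.mem_nhds (hc.mπ hx)))) (hc.dπ x hx),
    fun _ _ => mem_univ _, fun x hx => hab.mapsTo (hc.mπ hx), fun e he => by
      rw [hc.left _ (hab.mapsTo_inv he), hab.right_inv e he], fun x hx => by
      rw [hab.left_inv _ (hc.mπ hx), hc.right x hx]⟩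

omit [FiniteDimensional ℂ E] [IsManifold 𝓘(ℂ, E) 1 M] [PreconnectedSpace M] in
theorem Ch.biholo {h : E → M} {f : M → E} {U : Set E} (hc : Ch h f U univ) {g g' : M → M}
    (hg : Aut E g g') : IsBiholo U U (fun y => f (g (h y))) (fun y => f (g' (h y))) :=
  ⟨fun y hy => (MD.cmp (g := f) (f := fun y => g (h y)) (hc.dπ _ (mem_univ _))
      (MD.cmp (g := g) (f := h) (hg.hol _) (hc.dσ y hy))).diff.differentiableWithinAt,
    fun y hy => (MD.cmp (g := f) (f := fun y => g' (h y)) (hc.dπ _ (mem_univ _))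
      (MD.cmp (g := g') (f := h) (hg.hol' _) (hc.dσ y hy))).diff.differentiableWithinAt,
    fun _ _ => hc.mπ (mem_univ _), fun _ _ => hc.mπ (mem_univ _),
    fun y hy => by rw [hc.right _ (mem_univ _), hg.left, hc.left y hy],
    fun y hy => by rw [hc.right _ (mem_univ _), hg.right, hc.left y hy]⟩

/-- The manifold is biholomorphic to a bounded domain and to a Siegel domain. -/
theorem MSet.siegel [T2Space M] [Nontrivial E] (hM : MSet τ π Ω W K) {a : E}
    (ha : a ∈ ball (0 : E) 1) (hpk : PeakPt Ω a) {F : E → ℝ} (hF : AnalyticOnNhd ℝ F (ball 0 1))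
    (hFn : ∀ x ∈ ball (0 : E) 1, ¬ ∀ᶠ y in 𝓝 x, F y = 0)
    (hF0 : ∀ x ∈ frontier Ω, x ∈ ball (0 : E) 1 → F x = 0) :
    ∃ (U1 : Set E) (h : E → M) (f : M → E), Bornology.IsBounded U1 ∧ Ch h f U1 univ ∧
      ∃ (k : ℕ) (D : E →L[ℝ] (Fin k → ℝ)) (B : E →L[ℝ] E →L[ℝ] (Fin k → ℝ))
      (σ : (Fin k → ℂ) →L[ℂ] E) (C : Set (Fin k → ℝ)), (∀ w, Lam D (σ w) = w) ∧
      IsOpen C ∧ (∀ t : ℝ, 0 < t → ∀ ρ ∈ C, t • ρ ∈ C) ∧
      Biholomorphic U1 {y : E | D y + Lev B (prj D σ y) ∈ C} ∧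
      Convex ℝ {y : E | D y + Lev B (prj D σ y) ∈ C} := by
  have hps : ProperSpace E := FiniteDimensional.proper ℂ E
  have hdo : IsOpen Ω := hM.ch.oΩ
  obtain ⟨q, hq, k, D, B, σ, hσ, hfat, ⟨r0, hr0, c, hc, P, hP, hPq, hPre⟩, b, G, hG, hGd, hGh,
    hconv⟩ := H.exists_good_point_fat hdo (W := ball (0 : E) 1) isOpen_ball (F := F)
      ⟨a, hpk, ha⟩ (fun x hx => hF x hx.2) (fun x hx => hF0 x hx.1 hx.2)
      (fun x hx => hFn x hx.2) (fun q hq => by
        have h1 := mem_ball_zero_iff.1 hq.2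
        exact ⟨(1 - ‖q‖) / 2, by linarith, hM.kont ha hpk (by linarith)⟩)
  have hqb : q ∈ ball (0 : E) 1 := hq.2
  set 𝒰 : Ultrafilter ℕ := hyperfilter ℕ with h𝒰
  have hle : (𝒰 : Filter ℕ) ≤ atTop := Nat.hyperfilter_le_atTop
  set s : ℕ → ℝ := fun j => 1 / ((j : ℝ) + 1) with hs
  have hspos : ∀ j, 0 < s j := fun j => by (clear * -; positivity)
  have hslim : Tendsto s 𝒰 (𝓝[>] 0) := by
    refine tendsto_nhdsWithin_iff.2 ⟨tendsto_one_div_add_atTop_nhds_zero_nat.mono_left hle,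
      Eventually.of_forall hspos⟩
  have hdich := model_dich_local (D := D) (B := B) (σ := σ) (q := q) (U := Ω)
    (W := ball (0 : E) 1) isOpen_ball hqb (fun z hz => hF0 z hz.1 hz.2) hG hconv 𝒰 hslim
  set V : ℕ → Set E := fun j => (fun y => q + Th D B σ (s j) y) ⁻¹' Ω with hV
  obtain ⟨s0, hs0, hs0G⟩ := H.exists_mem_InS_of_fat hσ hGd hfat 𝒰 hslim hdich
  have hconI : ConicOff D B σ G (InS 𝒰 V) :=
    model_conic hσ (isOpen_InS 𝒰 V) (isOpen_OutS 𝒰 V) (disjoint_InS_OutS 𝒰 V) hGh hdich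
      Subset.rfl fun T _ h _ => h
  have hdP : ∀ u, Lam D u = 0 → fderiv ℂ P q u = 0 := by
    refine peak_deriv_zero (B := B) (U := Ω) hσ hr0 hP hPq (fun z hz hzb => ?_) 𝒰 hslim
      (ρ := rr D B σ s0) (fun y hy => ?_)
    · have h1 := hPre z hz hzb
      have h2 : 0 ≤ c * (‖z - q‖ ^ 2 + ‖D (z - q)‖) := by (clear * - hc; positivity)
      exact h2.trans h1
    · obtain ⟨r, hr, h⟩ := hconI s0 hs0 hs0G 1 one_pos y (by rw [hy, one_smul])
      exact h.mono fun j hj => hj (mem_ball_self hr)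
  obtain ⟨g, f, hfg⟩ := hM.first_scaling hqb hq.1 hσ hr0 hc hP hPq hPre hdP 𝒰 hslim hs0
  set S := connectedComponentIn (InS 𝒰 V) s0 with hS
  have hSo : IsOpen S := (isOpen_InS 𝒰 V).connectedComponentIn
  have hSsub : S ⊆ InS 𝒰 V := connectedComponentIn_subset _ _
  have hSne : S.Nonempty := ⟨s0, mem_connectedComponentIn hs0⟩
  have hsat : ConicOff D B σ G S := by
    refine model_conic hσ (isOpen_InS 𝒰 V) (isOpen_OutS 𝒰 V) (disjoint_InS_OutS 𝒰 V) hGh hdich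
      hSsub fun T hT hTI hTS => ?_
    obtain ⟨x, hxT, hxS⟩ := hTS
    have h1 : S = connectedComponentIn (InS 𝒰 V) x := connectedComponentIn_eq hxS
    rw [h1]
    exact hT.subset_connectedComponentIn hxT hTI
  -- the bounded model
  obtain ⟨ℓ, B2, hℓ⟩ := exists_model_peak_explicit (B := B) hσ hr0 hP hPq hPre hdP 𝒰 hslim
  obtain ⟨U1, hU1o, hU1b, f0, g0, hfg0⟩ := exists_bounded_model hσ hSo hSne hGd hsat hc
    fun y hy => hℓ y (hSsub hy)
  have hb := hfg.trans hU1o hfg0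
  have hcont : Continuous fun x => f0 (f x) :=
    continuous_iff_continuousAt.2 fun x => (hb.dπ x (mem_univ x)).cont
  have hK1 : IsCompact ((fun x => f0 (f x)) '' K) := hM.cpt.image hcont
  have hK1U : (fun x => f0 (f x)) '' K ⊆ U1 := by
    rintro _ ⟨x, -, rfl⟩
    exact hb.mπ (mem_univ x)
  have hco1 : CocompactAut U1 ((fun x => f0 (f x)) '' K) := by
    intro y hy
    obtain ⟨u, u', hu, huk⟩ := hM.co (g (g0 y))
    exact ⟨_, _, hb.biholo hu, _, huk, rfl⟩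
  have hU1c : IsPreconnected U1 := by
    have h1 : U1 = range fun x => f0 (f x) := by
      ext y
      constructor
      · intro hy
        exact ⟨_, hb.left y hy⟩
      · rintro ⟨x, rfl⟩
        exact hb.mπ (mem_univ x)
    rw [h1]
    exact isPreconnected_range hcont
  -- the second scaling
  obtain ⟨Q, hQd, hQ⟩ := exists_model_peak (B := B) hσ hr0 hP hPq hPre hdP 𝒰 hslim
  obtain ⟨C, h1, h2, h3, h4, h5⟩ := second_scaling hσ hU1o hU1c hU1b hK1 hK1U hco1 hSo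
    ⟨g0, f0, hfg0.symm⟩ hGd hGh hsat hSne hc hQd (fun y hy => hQ y (hSsub hy))
  exact ⟨U1, _, _, hU1b, hb, k, D, B, σ, C, hσ, h1, h4, h5,
    siegel_convex hσ hU1o hU1b hK1 hK1U hco1 h1 h2 h5⟩

end Vale.Agent.N274
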